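import Vale.Agent.P167.H722.Row5

/-!
# P167, `0 < q ≤ 1`: number of the clusters which cross an annulus

`kc_le4`: a cluster which crosses the annulus crosses one of four rectangles. `kcA_exp`: exponential
moment of the number of the clusters which cross an annulus of the ratio at least `8`.
-/

set_option autoImplicit false

namespace Vale.Agent.P167.H722

open Finset Vale.Agent.P167.FK Vale.Agent.P167.FKA
open Vale.Agent.P145.FB (PStep PConn step_of_corners)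
open Vale.Agent.P167.H166 (cl cl_eq cl_parity rtg_mono bxx mem_bxx CC CC_finite)
open Vale.Agent.P167.H262 (Rsq mem_Rsq Rsi rtg_rect CD rough_rect_dual mem_Db_rect)
open Vale.Agent.P167.H259 (f_markov)
open Vale.Agent.P167.H562.QM (cl_symm QC OneP OneC exists_even)
open Vale.Agent.P167.H816 (dV VR)
open Relation

variable {Q : ℝ} {a b c d : ℤ} {B D E : Finset (ℤ × ℤ)} {η ω : Cfg} {m : ℕ} {x : ℤ × ℤ} {r R : ℤ}

/-! ### paths -/

theorem rtg_imp {α : Type*} {p q : α → α → Prop} {x y : α} (h : ∀ a b, p a b → q a b)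
    (hxy : ReflTransGen p x y) : ReflTransGen q x y := by
  induction hxy with
  | refl => exact ReflTransGen.refl
  | tail _ h1 ih => exact ih.tail (h _ _ h1)

theorem last_exit {α : Type*} {p : α → α → Prop} {A : α → Prop} {x y : α}
    (h : ReflTransGen p x y) (hx : A x) (hy : ¬ A y) :
    ∃ u v, ReflTransGen p x u ∧ A u ∧ p u v ∧ ¬ A v ∧
      ReflTransGen (fun s t => p s t ∧ ¬ A s ∧ ¬ A t) v y := by
  induction h with
  | refl => exact absurd hx hy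
  | @tail z w hxz hzw ih =>
    by_cases hz : A z
    · exact ⟨z, w, hxz, hz, hzw, hy, ReflTransGen.refl⟩
    · obtain ⟨u, v, h1, h2, h3, h4, h5⟩ := ih hz
      exact ⟨u, v, h1, h2, h3, h4, h5.tail ⟨hzw, hz, hy⟩⟩

theorem first_exit {α : Type*} {p : α → α → Prop} {A : α → Prop} {x y : α}
    (h : ReflTransGen p x y) (hx : A x) (hy : ¬ A y) :
    ∃ u v, ReflTransGen (fun s t => p s t ∧ A s) x u ∧ A u ∧ p u v ∧ ¬ A v := by
  induction h using ReflTransGen.head_induction_on with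
  | refl => exact absurd hx hy
  | @head z w hzw hwy ih =>
    by_cases hw : A w
    · obtain ⟨u, v, h1, h2, h3, h4⟩ := ih hw
      exact ⟨u, v, ReflTransGen.head ⟨hzw, hx⟩ h1, h2, h3, h4⟩
    · exact ⟨z, w, ReflTransGen.refl, hx, hzw, hw⟩

theorem chain {F : Set (ℤ × ℤ)} {s v : ℤ × ℤ} (hr : 1 ≤ r) (φ : ℤ × ℤ → ℤ)
    (hφ : ∀ a b, PStep F a b → φ b ≤ φ a + 1) (hs : φ s ≤ r + 1)
    (h : ReflTransGen (fun a b => PStep F a b ∧ nm (a - x) ≤ 5 * r + 1) s v)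
    (hv : 5 * r + 2 ≤ φ v) : ∃ v', φ v' = 3 * r + 1 ∧ v' ∈ cl F s ∧
      ReflTransGen (fun a b => (PStep F a b ∧ nm (a - x) ≤ 5 * r + 1) ∧ 3 * r + 1 ≤ φ a ∧
        3 * r + 1 ≤ φ b) v' v := by
  obtain ⟨u, w, h1, h2, h3, h4, h5⟩ := last_exit (A := fun w => φ w < 3 * r + 1) h
    (by show φ s < 3 * r + 1; omega) (by show ¬ φ v < 3 * r + 1; omega)
  refine ⟨w, ?_, ?_, ?_⟩
  · have := hφ u w h3.1
    have h2' : φ u < 3 * r + 1 := h2
    have h4' : ¬ φ w < 3 * r + 1 := h4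
    omega
  · exact ReflTransGen.tail (rtg_imp (fun _ _ h => h.1) h1) h3.1
  · refine rtg_imp (fun a b h => ?_) h5
    have h6 : ¬ φ a < 3 * r + 1 := h.2.1
    have h7 : ¬ φ b < 3 * r + 1 := h.2.2
    exact ⟨h.1, by omega, by omega⟩

/-! ### the four rectangles -/

/-- The rectangle on the right. -/
noncomputable def Rr (x : ℤ × ℤ) (r : ℤ) : Finset (ℤ × ℤ) :=
  Rsq (x.1 + 3 * r + 1) (x.1 + 5 * r + 2) (x.2 - 5 * r - 2) (x.2 + 5 * r + 3)

/-- The rectangle on the left. -/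
noncomputable def Rl (x : ℤ × ℤ) (r : ℤ) : Finset (ℤ × ℤ) :=
  Rsq (x.1 - 5 * r - 2) (x.1 - 3 * r - 1) (x.2 - 5 * r - 2) (x.2 + 5 * r + 3)

/-- The rectangle above. -/
noncomputable def Ra (x : ℤ × ℤ) (r : ℤ) : Finset (ℤ × ℤ) :=
  Rsq (x.1 - 5 * r - 2) (x.1 + 5 * r + 3) (x.2 + 3 * r + 1) (x.2 + 5 * r + 2)

/-- The rectangle below. -/
noncomputable def Rb (x : ℤ × ℤ) (r : ℤ) : Finset (ℤ × ℤ) :=
  Rsq (x.1 - 5 * r - 2) (x.1 + 5 * r + 3) (x.2 - 5 * r - 2) (x.2 - 3 * r - 1)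

theorem mem_bxx2 {v : ℤ × ℤ} : v ∈ bxx x R ↔
    x.1 - R ≤ v.1 ∧ v.1 ≤ x.1 + R ∧ x.2 - R ≤ v.2 ∧ v.2 ≤ x.2 + R := by
  simp only [bxx, Finset.mem_product, Finset.mem_Icc]
  tauto

theorem Rr_sub (_ : 1 ≤ r) : Rr x r ⊆ bxx x (5 * r + 2) := by
  intro v hv
  rw [Rr, mem_Rsq] at hv
  rw [mem_bxx2]
  omega

theorem Rl_sub (_ : 1 ≤ r) : Rl x r ⊆ bxx x (5 * r + 2) := by
  intro v hv
  rw [Rl, mem_Rsq] at hv
  rw [mem_bxx2]
  omega

theorem Ra_sub (_ : 1 ≤ r) : Ra x r ⊆ bxx x (5 * r + 2) := by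
  intro v hv
  rw [Ra, mem_Rsq] at hv
  rw [mem_bxx2]
  omega

theorem Rb_sub (_ : 1 ≤ r) : Rb x r ⊆ bxx x (5 * r + 2) := by
  intro v hv
  rw [Rb, mem_Rsq] at hv
  rw [mem_bxx2]
  omega

theorem bxx_sub {R' : ℤ} (h : R ≤ R') : bxx x R ⊆ bxx x R' := by
  intro v hv
  rw [mem_bxx] at *
  omega

/-- The number of the crossing clusters of the rectangle on the right. -/
noncomputable def nr (x : ℤ × ℤ) (r : ℤ) (ω : Cfg) : ℕ :=
  (CrC (x.1 + 3 * r + 1) (x.1 + 5 * r + 2) (Op (Rr x r) ω)).ncard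

/-- The number of the crossing clusters of the rectangle on the left. -/
noncomputable def nl (x : ℤ × ℤ) (r : ℤ) (ω : Cfg) : ℕ :=
  (CrC (x.1 - 5 * r - 2) (x.1 - 3 * r - 1) (Op (Rl x r) ω)).ncard

/-- The number of the crossing clusters of the rectangle above. -/
noncomputable def na (x : ℤ × ℤ) (r : ℤ) (ω : Cfg) : ℕ :=
  (CrV (x.2 + 3 * r + 1) (x.2 + 5 * r + 2) (Op (Ra x r) ω)).ncard

/-- The number of the crossing clusters of the rectangle below. -/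
noncomputable def nb' (x : ℤ × ℤ) (r : ℤ) (ω : Cfg) : ℕ :=
  (CrV (x.2 - 5 * r - 2) (x.2 - 3 * r - 1) (Op (Rb x r) ω)).ncard

theorem crv_fin (hcd : c < d) (D : Finset (ℤ × ℤ)) (ω : Cfg) : (CrV c d (Op D ω)).Finite := by
  classical
  set W : Finset (ℤ × ℤ) := D.biUnion fun v =>
    {v, (v.1 + 1, v.2), (v.1, v.2 + 1), (v.1 + 1, v.2 + 1)} with hW
  refine ((W.finite_toSet).image (cl (Op D ω))).subset ?_
  rintro C ⟨u, h1, h2, rfl, t, ht, h3⟩
  refine ⟨u, ?_, rfl⟩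
  have ht' : ReflTransGen (PStep (Op D ω)) u t := ht
  rcases ReflTransGen.cases_head ht' with h4 | ⟨w, h4, -⟩
  · rw [← h4] at h3; omega
  · have h5 := (cor_of_step h4).1
    have h6 : (min u.1 w.1, min u.2 w.2) ∈ D := h4.2.2.1
    rw [Finset.mem_coe, hW, Finset.mem_biUnion]
    refine ⟨_, h6, ?_⟩
    simp only [Finset.mem_insert, Finset.mem_singleton, Prod.ext_iff]
    simp only [Cor] at h5
    omega

theorem ncard_cls {A B : Set (Set (ℤ × ℤ))} (hB : B.Finite)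
    (h : ∀ C ∈ A, ∃ C' ∈ B, C'.Nonempty ∧ C' ⊆ C)
    (hd : ∀ C₁ ∈ A, ∀ C₂ ∈ A, (C₁ ∩ C₂).Nonempty → C₁ = C₂) : A.ncard ≤ B.ncard := by
  classical
  choose! f hf using h
  refine Set.ncard_le_ncard_of_injOn f (fun C hC => (hf C hC).1) ?_ hB
  intro C₁ h1 C₂ h2 h12
  obtain ⟨y, hy⟩ := (hf C₁ h1).2.1
  exact hd C₁ h1 C₂ h2 ⟨y, (hf C₁ h1).2.2 hy, (hf C₂ h2).2.2 (h12 ▸ hy)⟩

theorem four {F : Set (ℤ × ℤ)} {S : Finset (ℤ × ℤ)} (hr : 1 ≤ r) (hR : 5 * r + 3 ≤ R)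
    (hF : F = Op S ω) (hS : bxx x (5 * r + 2) ⊆ S) {C : Set (ℤ × ℤ)} (hC : C ∈ CC x r R 0 F) :
    (∃ C' ∈ CrC (x.1 + 3 * r + 1) (x.1 + 5 * r + 2) (Op (Rr x r) ω), C'.Nonempty ∧ C' ⊆ C) ∨
    (∃ C' ∈ CrC (x.1 - 5 * r - 2) (x.1 - 3 * r - 1) (Op (Rl x r) ω), C'.Nonempty ∧ C' ⊆ C) ∨
    (∃ C' ∈ CrV (x.2 + 3 * r + 1) (x.2 + 5 * r + 2) (Op (Ra x r) ω), C'.Nonempty ∧ C' ⊆ C) ∨
    (∃ C' ∈ CrV (x.2 - 5 * r - 2) (x.2 - 3 * r - 1) (Op (Rb x r) ω), C'.Nonempty ∧ C' ⊆ C) := by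
  obtain ⟨s, hse, hs, rfl, t, ht, htR⟩ := hC
  have hse' : Even (s.1 + s.2) := by rw [Int.even_iff]; exact hse
  have ht' : ReflTransGen (PStep F) s t := ht
  obtain ⟨u, v, h1, h2, h3, h4⟩ := first_exit (A := fun w => nm (w - x) ≤ 5 * r + 1) ht'
    (by show nm (s - x) ≤ 5 * r + 1; omega) (by show ¬ nm (t - x) ≤ 5 * r + 1; omega)
  have h2' : nm (u - x) ≤ 5 * r + 1 := h2
  have h4' : 5 * r + 2 ≤ nm (v - x) := by
    have : ¬ nm (v - x) ≤ 5 * r + 1 := h4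
    omega
  have hsv : ReflTransGen (fun a b => PStep F a b ∧ nm (a - x) ≤ 5 * r + 1) s v :=
    h1.tail ⟨h3, h2⟩
  have hvC : v ∈ cl F s := rtg_imp (fun _ _ h => h.1) hsv
  rw [nm_le_iff] at hs h2'
  rw [le_nm_iff] at h4'
  simp only [Prod.fst_sub, Prod.snd_sub] at hs h2' h4'
  have h3' := h3
  obtain ⟨k1, k2, k3⟩ := h3'
  -- the squares of the steps
  have hsub : ∀ (T : Finset (ℤ × ℤ)), T ⊆ bxx x (5 * r + 2) →
      (Op T ω) ⊆ F := by
    intro T hT z hz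
    rw [hF]
    exact ⟨hS (hT hz.1), hz.2⟩
  have hfin : ∀ (T : Finset (ℤ × ℤ)) (w : ℤ × ℤ), T ⊆ bxx x (5 * r + 2) → w ∈ cl F s →
      cl (Op T ω) w ⊆ cl F s := by
    intro T w hT hw z hz
    exact ReflTransGen.trans hw (rtg_mono (hsub T hT) hz)
  rcases h4' with h5 | h5 | h5 | h5
  · -- right
    left
    obtain ⟨v', h6, h7, h8⟩ := chain (φ := fun w => w.1 - x.1) hr (fun a b hab => by
      have := hab.1; omega) (by omega) hsv (by omega)
    have h9 : ReflTransGen (PStep (Op (Rr x r) ω)) v' v := by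
      refine rtg_imp (fun a b hab => ?_) h8
      obtain ⟨⟨hab1, hab2⟩, hab3, hab4⟩ := hab
      refine ⟨hab1.1, hab1.2.1, ?_, ?_⟩
      · rw [nm_le_iff] at hab2
        simp only [Prod.fst_sub, Prod.snd_sub] at hab2 hab3 hab4
        rw [Rr, mem_Rsq]
        have e1 := hab1.1
        have e2 := hab1.2.1
        simp only
        omega
      · have h10 := hab1.2.2
        rw [hF] at h10
        exact h10.2
    refine ⟨cl (Op (Rr x r) ω) v', ⟨v', cl_even hse' h7, by omega, rfl, v, h9, by omega⟩,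
      ⟨v', ReflTransGen.refl⟩, hfin _ _ (Rr_sub hr) h7⟩
  · -- left
    right; left
    obtain ⟨v', h6, h7, h8⟩ := chain (φ := fun w => x.1 - w.1) hr (fun a b hab => by
      have := hab.1; omega) (by omega) hsv (by omega)
    have h9 : ReflTransGen (PStep (Op (Rl x r) ω)) v' v := by
      refine rtg_imp (fun a b hab => ?_) h8
      obtain ⟨⟨hab1, hab2⟩, hab3, hab4⟩ := hab
      refine ⟨hab1.1, hab1.2.1, ?_, ?_⟩
      · rw [nm_le_iff] at hab2
        simp only [Prod.fst_sub, Prod.snd_sub] at hab2 hab3 hab4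
        rw [Rl, mem_Rsq]
        have e1 := hab1.1
        have e2 := hab1.2.1
        simp only
        omega
      · have h10 := hab1.2.2
        rw [hF] at h10
        exact h10.2
    refine ⟨cl (Op (Rl x r) ω) v, ⟨v, cl_even hse' hvC, by omega, rfl, v', cl_symm h9, by omega⟩,
      ⟨v, ReflTransGen.refl⟩, hfin _ _ (Rl_sub hr) hvC⟩
  · -- above
    right; right; left
    obtain ⟨v', h6, h7, h8⟩ := chain (φ := fun w => w.2 - x.2) hr (fun a b hab => by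
      have := hab.2.1; omega) (by omega) hsv (by omega)
    have h9 : ReflTransGen (PStep (Op (Ra x r) ω)) v' v := by
      refine rtg_imp (fun a b hab => ?_) h8
      obtain ⟨⟨hab1, hab2⟩, hab3, hab4⟩ := hab
      refine ⟨hab1.1, hab1.2.1, ?_, ?_⟩
      · rw [nm_le_iff] at hab2
        simp only [Prod.fst_sub, Prod.snd_sub] at hab2 hab3 hab4
        rw [Ra, mem_Rsq]
        have e1 := hab1.1
        have e2 := hab1.2.1
        simp only
        omega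
      · have h10 := hab1.2.2
        rw [hF] at h10
        exact h10.2
    refine ⟨cl (Op (Ra x r) ω) v', ⟨v', cl_even hse' h7, by omega, rfl, v, h9, by omega⟩,
      ⟨v', ReflTransGen.refl⟩, hfin _ _ (Ra_sub hr) h7⟩
  · -- below
    right; right; right
    obtain ⟨v', h6, h7, h8⟩ := chain (φ := fun w => x.2 - w.2) hr (fun a b hab => by
      have := hab.2.1; omega) (by omega) hsv (by omega)
    have h9 : ReflTransGen (PStep (Op (Rb x r) ω)) v' v := by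
      refine rtg_imp (fun a b hab => ?_) h8
      obtain ⟨⟨hab1, hab2⟩, hab3, hab4⟩ := hab
      refine ⟨hab1.1, hab1.2.1, ?_, ?_⟩
      · rw [nm_le_iff] at hab2
        simp only [Prod.fst_sub, Prod.snd_sub] at hab2 hab3 hab4
        rw [Rb, mem_Rsq]
        have e1 := hab1.1
        have e2 := hab1.2.1
        simp only
        omega
      · have h10 := hab1.2.2
        rw [hF] at h10
        exact h10.2
    refine ⟨cl (Op (Rb x r) ω) v, ⟨v, cl_even hse' hvC, by omega, rfl, v', cl_symm h9, by omega⟩,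
      ⟨v, ReflTransGen.refl⟩, hfin _ _ (Rb_sub hr) hvC⟩

theorem kc_le4 {S : Finset (ℤ × ℤ)} (hr : 1 ≤ r) (hR : 5 * r + 3 ≤ R)
    (hS : bxx x (5 * r + 2) ⊆ S) :
    kc x r R S ω ≤ nr x r ω + nl x r ω + na x r ω + nb' x r ω := by
  classical
  unfold kc nr nl na nb'
  have hdis : ∀ C₁ ∈ CC x r R 0 (Op S ω), ∀ C₂ ∈ CC x r R 0 (Op S ω), (C₁ ∩ C₂).Nonempty →
      C₁ = C₂ := by
    rintro C₁ ⟨s1, -, -, rfl, -⟩ C₂ ⟨s2, -, -, rfl, -⟩ ⟨y, hy1, hy2⟩
    rw [← cl_eq hy1, ← cl_eq hy2]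
  set B1 := CrC (x.1 + 3 * r + 1) (x.1 + 5 * r + 2) (Op (Rr x r) ω) with hB1
  set B2 := CrC (x.1 - 5 * r - 2) (x.1 - 3 * r - 1) (Op (Rl x r) ω) with hB2
  set B3 := CrV (x.2 + 3 * r + 1) (x.2 + 5 * r + 2) (Op (Ra x r) ω) with hB3
  set B4 := CrV (x.2 - 5 * r - 2) (x.2 - 3 * r - 1) (Op (Rb x r) ω) with hB4
  set A : Set (Set (Set (ℤ × ℤ))) → Set (Set (ℤ × ℤ)) := fun _ => ∅ with hA
  have f1 : B1.Finite := crc_fin (by omega) _ _
  have f2 : B2.Finite := crc_fin (by omega) _ _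
  have f3 : B3.Finite := crv_fin (by omega) _ _
  have f4 : B4.Finite := crv_fin (by omega) _ _
  set A' : Set (Set (ℤ × ℤ)) → Set (Set (ℤ × ℤ)) := fun B =>
    {C | C ∈ CC x r R 0 (Op S ω) ∧ ∃ C' ∈ B, C'.Nonempty ∧ C' ⊆ C} with hA'
  have key : ∀ B : Set (Set (ℤ × ℤ)), B.Finite → (A' B).ncard ≤ B.ncard := fun B hB =>
    ncard_cls hB (fun C hC => hC.2) (fun C₁ h1 C₂ h2 h => hdis C₁ h1.1 C₂ h2.1 h)
  have hsub : CC x r R 0 (Op S ω) ⊆ A' B1 ∪ A' B2 ∪ A' B3 ∪ A' B4 := by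
    intro C hC
    rcases four hr hR rfl hS hC with h | h | h | h
    · exact Or.inl (Or.inl (Or.inl ⟨hC, h⟩))
    · exact Or.inl (Or.inl (Or.inr ⟨hC, h⟩))
    · exact Or.inl (Or.inr ⟨hC, h⟩)
    · exact Or.inr ⟨hC, h⟩
  have hfin : (A' B1 ∪ A' B2 ∪ A' B3 ∪ A' B4).Finite := by
    refine (CC_finite x r R 0 (Op S ω)).subset ?_
    rintro C (((h | h) | h) | h)
    · exact h.1
    · exact h.1
    · exact h.1
    · exact h.1
  have h1 := Set.ncard_le_ncard hsub hfin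
  have h2 := Set.ncard_union_le (A' B1 ∪ A' B2 ∪ A' B3) (A' B4)
  have h3 := Set.ncard_union_le (A' B1 ∪ A' B2) (A' B3)
  have h4 := Set.ncard_union_le (A' B1) (A' B2)
  have k1 := key B1 f1
  have k2 := key B2 f2
  have k3 := key B3 f3
  have k4 := key B4 f4
  omega

end Vale.Agent.P167.H722
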