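import Vale.Agent.P167.H722.Ann2

/-!
# P167, `0 < q ≤ 1`: exponential moment of the crossing numbers of an annulus, both colours

`crB`: input is only `VR Q` (uniform lower bounds for the crossings of rectangles, worst outside
configuration). `cross_fk'`: the property `CrossFK Q`.
-/

set_option autoImplicit false

namespace Vale.Agent.P167.H722

open Finset Vale.Agent.P167.FK Vale.Agent.P167.FKA
open Vale.Agent.P167.H166 (bxx mem_bxx loops_le)
open Vale.Agent.P167.H259 (f_markov)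
open Vale.Agent.P167.H816 (VR)

variable {Q : ℝ} {D : Finset (ℤ × ℤ)} {η : Cfg} {x : ℤ × ℤ} {r R : ℤ}

/-- **The crossing numbers of the annulus.** -/
theorem crB (hQ : 0 < Q) (hQ1 : Q ≤ 1) (hV : VR Q) : ∃ l C : ℝ, 0 < l ∧ 0 < C ∧
    ∀ (x : ℤ × ℤ) (r R : ℤ), 1 ≤ r → 5 * r + 3 ≤ R → ∀ (D : Finset (ℤ × ℤ)) (η : Cfg)
      (G : Cfg → ℝ), Good η →
      (∀ y : ℤ × ℤ, bxx y r ⊆ bxx x (5 * r + 2) → Blk (bxx y r) D η) → (∀ ω, 0 ≤ G ω) →
      Ind (D ∩ bxx x (5 * r + 2)) G →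
      Ex Q D η (fun ω => G ω * Real.exp (l * ((kap x r R 0 true ω + kap x r R 1 false ω : ℕ) : ℝ)))
        ≤ C * Ex Q D η G := by
  obtain ⟨l1, C1, hl1, hC1, h1⟩ := kcA_exp hQ hQ1 hV
  obtain ⟨l2, C2, hl2, hC2, h2⟩ := kcA_dual hQ hQ1 hV
  set l : ℝ := min l1 l2 / 2 with hl
  have hl0 : 0 < l := by
    rw [hl]
    have := lt_min hl1 hl2
    linarith
  have hll1 : 2 * l ≤ l1 := by
    have := min_le_left l1 l2
    rw [hl]
    linarith
  have hll2 : 2 * l ≤ l2 := by
    have := min_le_right l1 l2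
    rw [hl]
    linarith
  refine ⟨l, max C1 C2, hl0, lt_max_of_lt_left hC1, fun x r R hr hR D η G hη hB hG0 hG => ?_⟩
  have k1 := h1 x r R hr hR D η G hη hB hG0 hG
  have k2 := h2 x r R hr hR D η G hη hB hG0 hG
  have hGe : 0 ≤ Ex Q D η G := Ex_nonneg hQ fun S _ => hG0 _
  have h3 : Ex Q D η (fun ω => G ω * Real.exp (l * ((kap x r R 0 true ω +
      kap x r R 1 false ω : ℕ) : ℝ))) ≤
      Ex Q D η (fun ω => (1 / 2) * (G ω * Real.exp (l1 * (kc x r R (bxx x R) ω : ℝ)) +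
        G ω * Real.exp (l2 * (kap x r R 1 false ω : ℝ)))) := by
    refine Ex_mono hQ fun S _ => ?_
    generalize cf D η S = ω
    rw [← kap_eq]
    generalize kap x r R 0 true ω = a
    generalize kap x r R 1 false ω = b
    have e1 : Real.exp (l * ((a + b : ℕ) : ℝ)) = Real.exp (l * a) * Real.exp (l * b) := by
      rw [← Real.exp_add]; congr 1; push_cast; ring
    have e2 : ∀ a : ℝ, Real.exp (2 * l * a) = Real.exp (l * a) ^ 2 := by
      intro a
      rw [← Real.exp_nat_mul]; congr 1; push_cast; ring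
    have e3 : Real.exp (2 * l * (a : ℝ)) ≤ Real.exp (l1 * a) :=
      Real.exp_le_exp.2 (mul_le_mul_of_nonneg_right hll1 (Nat.cast_nonneg a))
    have e4 : Real.exp (2 * l * (b : ℝ)) ≤ Real.exp (l2 * b) :=
      Real.exp_le_exp.2 (mul_le_mul_of_nonneg_right hll2 (Nat.cast_nonneg b))
    have e5 : Real.exp (l * ((a + b : ℕ) : ℝ)) ≤
        (1 / 2) * (Real.exp (l1 * a) + Real.exp (l2 * b)) := by
      rw [e1]
      rw [e2] at e3 e4
      nlinarith [sq_nonneg (Real.exp (l * (a : ℝ)) - Real.exp (l * (b : ℝ)))]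
    refine (mul_le_mul_of_nonneg_left e5 (hG0 ω)).trans (le_of_eq ?_)
    ring
  rw [Ex_mul_left, Ex_add] at h3
  have h4 : C1 * Ex Q D η G ≤ max C1 C2 * Ex Q D η G :=
    mul_le_mul_of_nonneg_right (le_max_left _ _) hGe
  have h5 : C2 * Ex Q D η G ≤ max C1 C2 * Ex Q D η G :=
    mul_le_mul_of_nonneg_right (le_max_right _ _) hGe
  linarith

theorem blk_sub {B : Finset (ℤ × ℤ)} (h : B ⊆ D) : Blk B D η := by
  refine ⟨fun v hv hvD => absurd (h hv) hvD, ?_⟩
  intro v hv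
  exact absurd (h hv.1) hv.2.1

/-- **Exponential moment of the number of the crossing loops**, uniformly in the boundary
conditions. -/
theorem cross_fk' (hQ : 0 < Q) (hQ1 : Q ≤ 1) (hV : VR Q) : CrossFK Q := by
  obtain ⟨l, C, hl, hC, h⟩ := crB hQ hQ1 hV
  refine ⟨8, l, C, by norm_num, hl, hC, fun x r hr =>
    ⟨fun ω => kap x r (8 * r) 0 true ω + kap x r (8 * r) 1 false ω, ?_, ?_, ?_⟩⟩
  · intro ω ω' hω
    simp only [kap, Sb_congr hω]
  · intro ω
    exact loops_le s_nx s_jump s_step s_two x r (8 * r) ω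
  · intro D η G hη hD hG0 hG
    refine h x r (8 * r) hr (by omega) D η G hη (fun y hy => ?_) hG0 (Ind.mono ?_ hG)
    · exact blk_sub (hy.trans ((bxx_sub (by omega)).trans hD))
    · exact Finset.inter_subset_right.trans (bxx_sub (by omega))

end Vale.Agent.P167.H722
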