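import Vale.Agent.P167.H722.Ann

/-!
# P167, `0 < q ≤ 1`: number of the clusters which cross an annulus, probability

`kcA_exp`, `kcA_dual`: exponential moments of the number of the open clusters and of the closed clusters
which cross an annulus, conditionally on everything outside of the annulus, if the frozen squares of
each box of the size of the hole of the annulus form one cluster of each colour.
-/

set_option autoImplicit false

namespace Vale.Agent.P167.H722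

open Finset Vale.Agent.P167.FK Vale.Agent.P167.FKA
open Vale.Agent.P145.FB (PStep PConn step_of_corners)
open Vale.Agent.P167.H166 (cl cl_eq cl_parity rtg_mono bxx mem_bxx CC CC_finite)
open Vale.Agent.P167.H262 (Rsq mem_Rsq Rsi rtg_rect CD rough_rect_dual mem_Db_rect)
open Vale.Agent.P167.H259 (f_markov)
open Vale.Agent.P167.H562.QM (cl_symm QC OneP OneC exists_even)
open Vale.Agent.P167.H816 (dV VR)
open Relation

variable {Q : ℝ} {B D E : Finset (ℤ × ℤ)} {η ζ : Cfg} {x : ℤ × ℤ} {r R : ℤ}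

theorem Blk.congr (hE : ∀ v ∈ B, (v ∈ E ↔ v ∈ D)) (hζ : ∀ v ∈ B, v ∉ D → ζ v = η v)
    (h : Blk B D η) : Blk B E ζ := by
  have e : ∀ b : Bool, ({z | z ∈ B ∧ z ∉ E ∧ ζ z = b} : Set (ℤ × ℤ)) =
      {z | z ∈ B ∧ z ∉ D ∧ η z = b} := by
    intro b
    ext z
    constructor
    · rintro ⟨h1, h2, h3⟩
      have h4 : z ∉ D := fun h => h2 ((hE z h1).2 h)
      exact ⟨h1, h4, by rw [← hζ z h1 h4]; exact h3⟩
    · rintro ⟨h1, h2, h3⟩
      exact ⟨h1, fun h => h2 ((hE z h1).1 h), by rw [hζ z h1 h2]; exact h3⟩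
  constructor
  · intro v hv hvE hvo w hw hwE hwo
    have hvD : v ∉ D := fun h => hvE ((hE v hv).2 h)
    have hwD : w ∉ D := fun h => hwE ((hE w hw).2 h)
    rw [e true]
    exact h.1 v hv hvD (by rw [← hζ v hv hvD]; exact hvo) w hw hwD
      (by rw [← hζ w hw hwD]; exact hwo)
  · have h2 : OConn {z | z ∈ B ∧ z ∉ E ∧ ζ z = false} := by
      rw [e false]
      exact h.2
    exact h2

/-- The centres of the boxes of a rectangle. -/
def off (r : ℤ) : Fin 5 → ℤ
  | 0 => -(4 * r + 2)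
  | 1 => -(2 * r + 1)
  | 2 => 0
  | 3 => 2 * r + 1
  | 4 => 4 * r + 2

theorem off_bd (hr : 1 ≤ r) (i : Fin 5) : -(4 * r + 2) ≤ off r i ∧ off r i ≤ 4 * r + 2 := by
  fin_cases i <;> simp only [off] <;> constructor <;> omega

theorem off_cov (t : ℤ) (h1 : -(5 * r + 2) ≤ t) (h2 : t ≤ 5 * r + 2) :
    ∃ i, off r i - r ≤ t ∧ t ≤ off r i + r := by
  by_cases k1 : t ≤ -(3 * r + 2)
  · exact ⟨0, by simp only [off]; omega, by simp only [off]; omega⟩
  by_cases k2 : t ≤ -(r + 1)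
  · exact ⟨1, by simp only [off]; omega, by simp only [off]; omega⟩
  by_cases k3 : t ≤ r
  · exact ⟨2, by simp only [off]; omega, by simp only [off]; omega⟩
  by_cases k4 : t ≤ 3 * r + 1
  · exact ⟨3, by simp only [off]; omega, by simp only [off]; omega⟩
  · exact ⟨4, by simp only [off]; omega, by simp only [off]; omega⟩

/-- Conditioning on the outside of a rectangle. -/
theorem cond_step (hQ : 0 < Q) {T : Finset (ℤ × ℤ)} {N : Cfg → ℝ} {G : Cfg → ℝ} {C : ℝ}
    (hη : Good η) (hG0 : ∀ ω, 0 ≤ G ω) (hG : Ind (D ∩ T) G)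
    (h : ∀ S ⊆ D, Ex Q (D ∩ T) (cf D η S) N ≤ C) :
    Ex Q D η (fun ω => G ω * N ω) ≤ C * Ex Q D η G := by
  rw [markov f_markov hQ (Finset.inter_subset_left : D ∩ T ⊆ D) hη hG, ← Ex_mul_left]
  refine Ex_mono hQ fun S hS => ?_
  rw [mul_comm C]
  exact mul_le_mul_of_nonneg_left (h S hS) (hG0 _)

/-- **The annulus, open clusters.** -/
theorem kcA_exp (hQ : 0 < Q) (hQ1 : Q ≤ 1) (hV : VR Q) : ∃ l C : ℝ, 0 < l ∧ 0 < C ∧
    ∀ (x : ℤ × ℤ) (r R : ℤ), 1 ≤ r → 5 * r + 3 ≤ R → ∀ (D : Finset (ℤ × ℤ)) (η : Cfg)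
      (G : Cfg → ℝ), Good η →
      (∀ y : ℤ × ℤ, bxx y r ⊆ bxx x (5 * r + 2) → Blk (bxx y r) D η) → (∀ ω, 0 ≤ G ω) →
      Ind (D ∩ bxx x (5 * r + 2)) G →
      Ex Q D η (fun ω => G ω * Real.exp (l * (kc x r R (bxx x R) ω : ℝ))) ≤ C * Ex Q D η G := by
  classical
  obtain ⟨c, hc, hV5⟩ := hV 5
  obtain ⟨l1, C1, hl1, hC1, hH⟩ := blk_exp 5 hc
  obtain ⟨l2, C2, hl2, hC2, hVV⟩ := blk_expV 5 hc
  set l : ℝ := min l1 l2 / 4 with hl
  have hl0 : 0 < l := by
    rw [hl]
    have := lt_min hl1 hl2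
    linarith
  have hll1 : 4 * l ≤ l1 := by
    have := min_le_left l1 l2
    rw [hl]
    linarith
  have hll2 : 4 * l ≤ l2 := by
    have := min_le_right l1 l2
    rw [hl]
    linarith
  refine ⟨l, max C1 C2, hl0, lt_max_of_lt_left hC1, fun x r R hr hR D η G hη hB hG0 hG => ?_⟩
  -- the probabilities
  have hdV : ∀ a b c' d : ℤ, b = a + (2 * r + 1) → d = c' + 5 * (2 * r + 1) → c ≤ dV Q a b c' d := by
    intro a b c' d h1 h2
    rw [h1, h2]
    exact (hV5 (2 * r + 1) a c' (by omega)).2.2.2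
  have hblk : ∀ (T : Finset (ℤ × ℤ)) (y : ℤ × ℤ), T ⊆ bxx x (5 * r + 2) → bxx y r ⊆ T → ∀ S,
      Blk (bxx y r) (D ∩ T) (cf D η S) := by
    intro T y hT hy S
    refine Blk.congr (D := D) (η := η) (fun v hv => ?_) (fun v _ hvD => cf_out hvD)
      (hB y (hy.trans hT))
    rw [Finset.mem_inter]
    exact ⟨fun h => h.1, fun h => ⟨h, hy hv⟩⟩
  have hexp : ∀ (l' : ℝ) (n : ℕ), 4 * l ≤ l' →
      Real.exp (4 * l * (n : ℝ)) ≤ Real.exp (l' * (n : ℝ)) := fun l' n h =>
    Real.exp_le_exp.2 (mul_le_mul_of_nonneg_right h (Nat.cast_nonneg n))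
  -- right
  have k1 : Ex Q D η (fun ω => G ω * Real.exp (4 * l * (nr x r ω : ℝ))) ≤
      max C1 C2 * Ex Q D η G := by
    refine cond_step hQ (T := Rr x r) hη hG0
      (Ind.mono (Finset.inter_subset_inter_left (Rr_sub hr)) hG) fun S _ => ?_
    have hm : Ex Q (D ∩ Rr x r) (cf D η S) (fun ω => Real.exp (4 * l * (nr x r ω : ℝ))) ≤
        Ex Q (D ∩ Rr x r) (cf D η S) (fun ω => Real.exp (l1 * (nr x r ω : ℝ))) :=
      Ex_mono hQ fun S' _ => hexp l1 _ hll1
    refine hm.trans (le_trans ?_ (le_max_left _ _))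
    have hb : ∀ i : Fin 5, bxx (x.1 + 4 * r + 1, x.2 + off r i) r ⊆ Rr x r := by
      intro i v hv
      have := off_bd hr i
      rw [mem_bxx2] at hv
      rw [Rr, mem_Rsq]
      simp only at hv
      omega
    refine hH Q hQ hQ1 _ _ _ _ (by omega) (by omega) (hdV _ _ _ _ (by ring) (by ring))
      (fun i => bxx (x.1 + 4 * r + 1, x.2 + off r i) r) _ _ Finset.inter_subset_right
      (f_good.1 D η S hη) hb (fun v hv => ?_) (fun i => hblk _ _ (Rr_sub hr) (hb i) S)
    rw [mem_Rsq] at hv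
    obtain ⟨i, h1, h2⟩ := off_cov (r := r) (v.2 - x.2) (by omega) (by omega)
    refine ⟨i, ?_⟩
    rw [mem_bxx2]
    simp only
    omega
  -- left
  have k2 : Ex Q D η (fun ω => G ω * Real.exp (4 * l * (nl x r ω : ℝ))) ≤
      max C1 C2 * Ex Q D η G := by
    refine cond_step hQ (T := Rl x r) hη hG0
      (Ind.mono (Finset.inter_subset_inter_left (Rl_sub hr)) hG) fun S _ => ?_
    have hm : Ex Q (D ∩ Rl x r) (cf D η S) (fun ω => Real.exp (4 * l * (nl x r ω : ℝ))) ≤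
        Ex Q (D ∩ Rl x r) (cf D η S) (fun ω => Real.exp (l1 * (nl x r ω : ℝ))) :=
      Ex_mono hQ fun S' _ => hexp l1 _ hll1
    refine hm.trans (le_trans ?_ (le_max_left _ _))
    have hb : ∀ i : Fin 5, bxx (x.1 - 4 * r - 2, x.2 + off r i) r ⊆ Rl x r := by
      intro i v hv
      have := off_bd hr i
      rw [mem_bxx2] at hv
      rw [Rl, mem_Rsq]
      simp only at hv
      omega
    refine hH Q hQ hQ1 _ _ _ _ (by omega) (by omega) (hdV _ _ _ _ (by ring) (by ring))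
      (fun i => bxx (x.1 - 4 * r - 2, x.2 + off r i) r) _ _ Finset.inter_subset_right
      (f_good.1 D η S hη) hb (fun v hv => ?_) (fun i => hblk _ _ (Rl_sub hr) (hb i) S)
    rw [mem_Rsq] at hv
    obtain ⟨i, h1, h2⟩ := off_cov (r := r) (v.2 - x.2) (by omega) (by omega)
    refine ⟨i, ?_⟩
    rw [mem_bxx2]
    simp only
    omega
  -- above
  have k3 : Ex Q D η (fun ω => G ω * Real.exp (4 * l * (na x r ω : ℝ))) ≤
      max C1 C2 * Ex Q D η G := by
    refine cond_step hQ (T := Ra x r) hη hG0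
      (Ind.mono (Finset.inter_subset_inter_left (Ra_sub hr)) hG) fun S _ => ?_
    have hm : Ex Q (D ∩ Ra x r) (cf D η S) (fun ω => Real.exp (4 * l * (na x r ω : ℝ))) ≤
        Ex Q (D ∩ Ra x r) (cf D η S) (fun ω => Real.exp (l2 * (na x r ω : ℝ))) :=
      Ex_mono hQ fun S' _ => hexp l2 _ hll2
    refine hm.trans (le_trans ?_ (le_max_right _ _))
    have hb : ∀ i : Fin 5, bxx (x.1 + off r i, x.2 + 4 * r + 1) r ⊆ Ra x r := by
      intro i v hv
      have := off_bd hr i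
      rw [mem_bxx2] at hv
      rw [Ra, mem_Rsq]
      simp only at hv
      omega
    refine hVV Q hQ hQ1 _ _ _ _ (by omega) (by omega) (hdV _ _ _ _ (by ring) (by ring))
      (fun i => bxx (x.1 + off r i, x.2 + 4 * r + 1) r) _ _ Finset.inter_subset_right
      (f_good.1 D η S hη) hb (fun v hv => ?_) (fun i => hblk _ _ (Ra_sub hr) (hb i) S)
    rw [mem_Rsq] at hv
    obtain ⟨i, h1, h2⟩ := off_cov (r := r) (v.1 - x.1) (by omega) (by omega)
    refine ⟨i, ?_⟩
    rw [mem_bxx2]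
    simp only
    omega
  -- below
  have k4 : Ex Q D η (fun ω => G ω * Real.exp (4 * l * (nb' x r ω : ℝ))) ≤
      max C1 C2 * Ex Q D η G := by
    refine cond_step hQ (T := Rb x r) hη hG0
      (Ind.mono (Finset.inter_subset_inter_left (Rb_sub hr)) hG) fun S _ => ?_
    have hm : Ex Q (D ∩ Rb x r) (cf D η S) (fun ω => Real.exp (4 * l * (nb' x r ω : ℝ))) ≤
        Ex Q (D ∩ Rb x r) (cf D η S) (fun ω => Real.exp (l2 * (nb' x r ω : ℝ))) :=
      Ex_mono hQ fun S' _ => hexp l2 _ hll2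
    refine hm.trans (le_trans ?_ (le_max_right _ _))
    have hb : ∀ i : Fin 5, bxx (x.1 + off r i, x.2 - 4 * r - 2) r ⊆ Rb x r := by
      intro i v hv
      have := off_bd hr i
      rw [mem_bxx2] at hv
      rw [Rb, mem_Rsq]
      simp only at hv
      omega
    refine hVV Q hQ hQ1 _ _ _ _ (by omega) (by omega) (hdV _ _ _ _ (by ring) (by ring))
      (fun i => bxx (x.1 + off r i, x.2 - 4 * r - 2) r) _ _ Finset.inter_subset_right
      (f_good.1 D η S hη) hb (fun v hv => ?_) (fun i => hblk _ _ (Rb_sub hr) (hb i) S)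
    rw [mem_Rsq] at hv
    obtain ⟨i, h1, h2⟩ := off_cov (r := r) (v.1 - x.1) (by omega) (by omega)
    refine ⟨i, ?_⟩
    rw [mem_bxx2]
    simp only
    omega
  -- together
  have h5 : Ex Q D η (fun ω => G ω * Real.exp (l * (kc x r R (bxx x R) ω : ℝ))) ≤
      Ex Q D η (fun ω => (1 / 4) * ((G ω * Real.exp (4 * l * (nr x r ω : ℝ)) +
        G ω * Real.exp (4 * l * (nl x r ω : ℝ))) + (G ω * Real.exp (4 * l * (na x r ω : ℝ)) +
        G ω * Real.exp (4 * l * (nb' x r ω : ℝ))))) := by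
    refine Ex_mono hQ fun S _ => ?_
    generalize cf D η S = ω
    have h6 := kc_le4 (ω := ω) (R := R) hr hR (bxx_sub (x := x) (by omega : 5 * r + 2 ≤ R))
    have h7 : (kc x r R (bxx x R) ω : ℝ) ≤ ((nr x r ω : ℝ) + nl x r ω) + (na x r ω + nb' x r ω) := by
      have : (kc x r R (bxx x R) ω : ℝ) ≤ ((nr x r ω + nl x r ω + na x r ω + nb' x r ω : ℕ) : ℝ) := by
        exact_mod_cast h6
      push_cast at this
      linarith
    have e : ∀ a b : ℝ, Real.exp (2 * l * (a + b)) ≤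
        (1 / 2) * (Real.exp (4 * l * a) + Real.exp (4 * l * b)) := by
      intro a b
      have e1 : Real.exp (2 * l * (a + b)) = Real.exp (2 * l * a) * Real.exp (2 * l * b) := by
        rw [← Real.exp_add]; congr 1; ring
      have e2 : ∀ a : ℝ, Real.exp (4 * l * a) = Real.exp (2 * l * a) ^ 2 := by
        intro a
        rw [← Real.exp_nat_mul]; congr 1; push_cast; ring
      rw [e1, e2, e2]
      nlinarith [sq_nonneg (Real.exp (2 * l * a) - Real.exp (2 * l * b))]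
    have e' : ∀ a b : ℝ, Real.exp (l * (a + b)) ≤
        (1 / 2) * (Real.exp (2 * l * a) + Real.exp (2 * l * b)) := by
      intro a b
      have e1 : Real.exp (l * (a + b)) = Real.exp (l * a) * Real.exp (l * b) := by
        rw [← Real.exp_add]; congr 1; ring
      have e2 : ∀ a : ℝ, Real.exp (2 * l * a) = Real.exp (l * a) ^ 2 := by
        intro a
        rw [← Real.exp_nat_mul]; congr 1; push_cast; ring
      rw [e1, e2, e2]
      nlinarith [sq_nonneg (Real.exp (l * a) - Real.exp (l * b))]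
    have h8 : Real.exp (l * (kc x r R (bxx x R) ω : ℝ)) ≤ (1 / 4) *
        ((Real.exp (4 * l * (nr x r ω : ℝ)) + Real.exp (4 * l * (nl x r ω : ℝ))) +
        (Real.exp (4 * l * (na x r ω : ℝ)) + Real.exp (4 * l * (nb' x r ω : ℝ)))) := by
      refine (Real.exp_le_exp.2 (mul_le_mul_of_nonneg_left h7 hl0.le)).trans ?_
      have h9 := e' ((nr x r ω : ℝ) + nl x r ω) ((na x r ω : ℝ) + nb' x r ω)
      have h10 := e (nr x r ω : ℝ) (nl x r ω : ℝ)
      have h11 := e (na x r ω : ℝ) (nb' x r ω : ℝ)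
      linarith
    have h12 := mul_le_mul_of_nonneg_left h8 (hG0 ω)
    refine h12.trans (le_of_eq ?_)
    ring
  rw [Ex_mul_left, Ex_add, Ex_add, Ex_add] at h5
  linarith

/-- **The annulus, closed clusters.** -/
theorem kcA_dual (hQ : 0 < Q) (hQ1 : Q ≤ 1) (hV : VR Q) : ∃ l C : ℝ, 0 < l ∧ 0 < C ∧
    ∀ (x : ℤ × ℤ) (r R : ℤ), 1 ≤ r → 5 * r + 3 ≤ R → ∀ (D : Finset (ℤ × ℤ)) (η : Cfg)
      (G : Cfg → ℝ), Good η →
      (∀ y : ℤ × ℤ, bxx y r ⊆ bxx x (5 * r + 2) → Blk (bxx y r) D η) → (∀ ω, 0 ≤ G ω) →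
      Ind (D ∩ bxx x (5 * r + 2)) G →
      Ex Q D η (fun ω => G ω * Real.exp (l * (kap x r R 1 false ω : ℝ))) ≤ C * Ex Q D η G := by
  classical
  obtain ⟨l, C, hl, hC, h⟩ := kcA_exp hQ hQ1 hV
  refine ⟨l, C, hl, hC, fun x r R hr hR D η G hη hB hG0 hG => ?_⟩
  have h1 := h (FKA.sh x) r R hr hR (D.image fun v => (v.1 + 1, v.2)) (du η)
    (fun ω => G (dui ω)) (f_dual.1 η hη) (fun y hy => ?_) (fun ω => hG0 _) ?_
  · rw [f_dual.2 Q D η (fun ω => G (dui ω) *
        Real.exp (l * (kc (FKA.sh x) r R (bxx (FKA.sh x) R) ω : ℝ))) hQ hη,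
      f_dual.2 Q D η (fun ω => G (dui ω)) hQ hη] at h1
    simp only [dui_du] at h1
    simp only [kap_dual]
    exact h1
  · have h2 : bxx (shi y) r ⊆ bxx x (5 * r + 2) := by
      intro v hv
      have h3 : FKA.sh v ∈ bxx y r := by
        rw [mem_bxx2] at hv ⊢
        simp only [FKA.sh, FKA.shi] at hv ⊢
        omega
      have h4 := hy h3
      rw [mem_bxx_sh, shi_sh] at h4
      exact h4
    have h3 := (hB (shi y) h2).du
    have h4 : ((bxx (shi y) r).image fun v => (v.1 + 1, v.2)) = bxx y r := by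
      ext v
      rw [mem_im_sh, mem_bxx2, mem_bxx2]
      simp only [FKA.shi]
      omega
    rw [h4] at h3
    exact h3
  · intro ω ω' hω
    refine hG _ _ fun v hv => ?_
    show (!ω (v.1 + 1, v.2)) = !ω' (v.1 + 1, v.2)
    rw [hω (v.1 + 1, v.2)]
    intro h2
    rw [Finset.mem_inter, mem_im_sh, mem_bxx_sh] at h2
    have h3 : shi (v.1 + 1, v.2) = v := shi_sh v
    rw [h3] at h2
    exact hv (Finset.mem_inter.2 h2)

end Vale.Agent.P167.H722
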