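import Vale.Agent.P167.H108.RowX
import Vale.Agent.P167.H722.Ann2

/-!
# P167, `0 < q ≤ 1`: tail of the number of the fresh clusters which cross an annulus

`kf_tailF`: the number of the crossing clusters which do not touch a frozen square has an exponential
tail, if the frozen squares belong to few clusters.
-/

set_option autoImplicit false

namespace Vale.Agent.P167.H722

open Finset Vale.Agent.P167.FK Vale.Agent.P167.FKA
open Vale.Agent.P145.FB (PStep PConn step_of_corners)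
open Vale.Agent.P167.H166 (cl cl_eq cl_parity rtg_mono bxx mem_bxx CC CC_finite)
open Vale.Agent.P167.H262 (Rsq mem_Rsq Rsi rtg_rect CD rough_rect_dual mem_Db_rect)
open Vale.Agent.P167.H259 (f_markov)
open Vale.Agent.P167.H562.QM (cl_symm QC OneP OneC exists_even)
open Vale.Agent.P167.H816 (dV VR)
open Vale.Agent.P167.H108 (Few FewA rect_h rect_v)
open Vale.Agent.P167.QC (KF kf kf_true)
open Relation

variable {Q : ℝ} {B D E : Finset (ℤ × ℤ)} {η ω : Cfg} {x : ℤ × ℤ} {r R : ℤ}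

theorem four_F {S : Finset (ℤ × ℤ)} (hr : 1 ≤ r) (hR : 5 * r + 3 ≤ R) {C : Set (ℤ × ℤ)}
    (hC : C ∈ CC x r R 0 (Op S ω)) :
    (∃ C' ∈ CrC (x.1 + 3 * r + 1) (x.1 + 5 * r + 2) (Op (S ∩ Rr x r) ω), C'.Nonempty ∧ C' ⊆ C) ∨
    (∃ C' ∈ CrC (x.1 - 5 * r - 2) (x.1 - 3 * r - 1) (Op (S ∩ Rl x r) ω), C'.Nonempty ∧ C' ⊆ C) ∨
    (∃ C' ∈ CrV (x.2 + 3 * r + 1) (x.2 + 5 * r + 2) (Op (S ∩ Ra x r) ω), C'.Nonempty ∧ C' ⊆ C) ∨
    (∃ C' ∈ CrV (x.2 - 5 * r - 2) (x.2 - 3 * r - 1) (Op (S ∩ Rb x r) ω), C'.Nonempty ∧ C' ⊆ C) := by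
  set F : Set (ℤ × ℤ) := Op S ω with hF
  obtain ⟨s, hse, hs, rfl, t, ht, htR⟩ := hC
  have hse' : Even (s.1 + s.2) := by rw [Int.even_iff]; exact hse
  have ht' : ReflTransGen (PStep F) s t := ht
  obtain ⟨u, v, h1, h2, h3, h4⟩ := first_exit (A := fun w => nm (w - x) ≤ 5 * r + 1) ht'
    (by show nm (s - x) ≤ 5 * r + 1; omega) (by show ¬ nm (t - x) ≤ 5 * r + 1; omega)
  have h2' : nm (u - x) ≤ 5 * r + 1 := h2
  have h4' : 5 * r + 2 ≤ nm (v - x) := by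
    have : ¬ nm (v - x) ≤ 5 * r + 1 := h4
    omega
  have hsv : ReflTransGen (fun a b => PStep F a b ∧ nm (a - x) ≤ 5 * r + 1) s v :=
    h1.tail ⟨h3, h2⟩
  have hvC : v ∈ cl F s := rtg_imp (fun _ _ h => h.1) hsv
  rw [nm_le_iff] at hs h2'
  rw [le_nm_iff] at h4'
  simp only [Prod.fst_sub, Prod.snd_sub] at hs h2' h4'
  have h3' := h3
  obtain ⟨k1, k2, k3⟩ := h3'
  -- the squares of the steps
  have hsub : ∀ (T : Finset (ℤ × ℤ)), (Op (S ∩ T) ω) ⊆ F := by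
    intro T z hz
    exact ⟨(Finset.mem_inter.1 (Finset.mem_coe.1 hz.1)).1, hz.2⟩
  have hfin : ∀ (T : Finset (ℤ × ℤ)) (w : ℤ × ℤ), w ∈ cl F s →
      cl (Op (S ∩ T) ω) w ⊆ cl F s := by
    intro T w hw z hz
    exact ReflTransGen.trans hw (rtg_mono (hsub T) hz)
  rcases h4' with h5 | h5 | h5 | h5
  · -- right
    left
    obtain ⟨v', h6, h7, h8⟩ := chain (φ := fun w => w.1 - x.1) hr (fun a b hab => by
      have := hab.1; omega) (by omega) hsv (by omega)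
    have h9 : ReflTransGen (PStep (Op (S ∩ Rr x r) ω)) v' v := by
      refine rtg_imp (fun a b hab => ?_) h8
      obtain ⟨⟨hab1, hab2⟩, hab3, hab4⟩ := hab
      have h10 : (min a.1 b.1, min a.2 b.2) ∈ Op S ω := hab1.2.2
      refine ⟨hab1.1, hab1.2.1, Finset.mem_coe.2 (Finset.mem_inter.2 ⟨h10.1, ?_⟩), h10.2⟩
      rw [nm_le_iff] at hab2
      simp only [Prod.fst_sub, Prod.snd_sub] at hab2 hab3 hab4
      rw [Rr, mem_Rsq]
      have e1 := hab1.1
      have e2 := hab1.2.1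
      simp only
      omega
    refine ⟨cl (Op (S ∩ Rr x r) ω) v', ⟨v', cl_even hse' h7, by omega, rfl, v, h9, by omega⟩,
      ⟨v', ReflTransGen.refl⟩, hfin _ _ h7⟩
  · -- left
    right; left
    obtain ⟨v', h6, h7, h8⟩ := chain (φ := fun w => x.1 - w.1) hr (fun a b hab => by
      have := hab.1; omega) (by omega) hsv (by omega)
    have h9 : ReflTransGen (PStep (Op (S ∩ Rl x r) ω)) v' v := by
      refine rtg_imp (fun a b hab => ?_) h8
      obtain ⟨⟨hab1, hab2⟩, hab3, hab4⟩ := hab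
      have h10 : (min a.1 b.1, min a.2 b.2) ∈ Op S ω := hab1.2.2
      refine ⟨hab1.1, hab1.2.1, Finset.mem_coe.2 (Finset.mem_inter.2 ⟨h10.1, ?_⟩), h10.2⟩
      rw [nm_le_iff] at hab2
      simp only [Prod.fst_sub, Prod.snd_sub] at hab2 hab3 hab4
      rw [Rl, mem_Rsq]
      have e1 := hab1.1
      have e2 := hab1.2.1
      simp only
      omega
    refine ⟨cl (Op (S ∩ Rl x r) ω) v, ⟨v, cl_even hse' hvC, by omega, rfl, v', cl_symm h9, by omega⟩,
      ⟨v, ReflTransGen.refl⟩, hfin _ _ hvC⟩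
  · -- above
    right; right; left
    obtain ⟨v', h6, h7, h8⟩ := chain (φ := fun w => w.2 - x.2) hr (fun a b hab => by
      have := hab.2.1; omega) (by omega) hsv (by omega)
    have h9 : ReflTransGen (PStep (Op (S ∩ Ra x r) ω)) v' v := by
      refine rtg_imp (fun a b hab => ?_) h8
      obtain ⟨⟨hab1, hab2⟩, hab3, hab4⟩ := hab
      have h10 : (min a.1 b.1, min a.2 b.2) ∈ Op S ω := hab1.2.2
      refine ⟨hab1.1, hab1.2.1, Finset.mem_coe.2 (Finset.mem_inter.2 ⟨h10.1, ?_⟩), h10.2⟩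
      rw [nm_le_iff] at hab2
      simp only [Prod.fst_sub, Prod.snd_sub] at hab2 hab3 hab4
      rw [Ra, mem_Rsq]
      have e1 := hab1.1
      have e2 := hab1.2.1
      simp only
      omega
    refine ⟨cl (Op (S ∩ Ra x r) ω) v', ⟨v', cl_even hse' h7, by omega, rfl, v, h9, by omega⟩,
      ⟨v', ReflTransGen.refl⟩, hfin _ _ h7⟩
  · -- below
    right; right; right
    obtain ⟨v', h6, h7, h8⟩ := chain (φ := fun w => x.2 - w.2) hr (fun a b hab => by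
      have := hab.2.1; omega) (by omega) hsv (by omega)
    have h9 : ReflTransGen (PStep (Op (S ∩ Rb x r) ω)) v' v := by
      refine rtg_imp (fun a b hab => ?_) h8
      obtain ⟨⟨hab1, hab2⟩, hab3, hab4⟩ := hab
      have h10 : (min a.1 b.1, min a.2 b.2) ∈ Op S ω := hab1.2.2
      refine ⟨hab1.1, hab1.2.1, Finset.mem_coe.2 (Finset.mem_inter.2 ⟨h10.1, ?_⟩), h10.2⟩
      rw [nm_le_iff] at hab2
      simp only [Prod.fst_sub, Prod.snd_sub] at hab2 hab3 hab4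
      rw [Rb, mem_Rsq]
      have e1 := hab1.1
      have e2 := hab1.2.1
      simp only
      omega
    refine ⟨cl (Op (S ∩ Rb x r) ω) v, ⟨v, cl_even hse' hvC, by omega, rfl, v', cl_symm h9, by omega⟩,
      ⟨v, ReflTransGen.refl⟩, hfin _ _ hvC⟩

theorem kcF_le4 {S : Finset (ℤ × ℤ)} (hr : 1 ≤ r) (hR : 5 * r + 3 ≤ R) :
    kc x r R S ω ≤ (CrC (x.1 + 3 * r + 1) (x.1 + 5 * r + 2) (Op (S ∩ Rr x r) ω)).ncard +
      (CrC (x.1 - 5 * r - 2) (x.1 - 3 * r - 1) (Op (S ∩ Rl x r) ω)).ncard +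
      (CrV (x.2 + 3 * r + 1) (x.2 + 5 * r + 2) (Op (S ∩ Ra x r) ω)).ncard +
      (CrV (x.2 - 5 * r - 2) (x.2 - 3 * r - 1) (Op (S ∩ Rb x r) ω)).ncard := by
  classical
  unfold kc
  have hdis : ∀ C₁ ∈ CC x r R 0 (Op S ω), ∀ C₂ ∈ CC x r R 0 (Op S ω), (C₁ ∩ C₂).Nonempty →
      C₁ = C₂ := by
    rintro C₁ ⟨s1, -, -, rfl, -⟩ C₂ ⟨s2, -, -, rfl, -⟩ ⟨y, hy1, hy2⟩
    rw [← cl_eq hy1, ← cl_eq hy2]
  set B1 := CrC (x.1 + 3 * r + 1) (x.1 + 5 * r + 2) (Op (S ∩ Rr x r) ω) with hB1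
  set B2 := CrC (x.1 - 5 * r - 2) (x.1 - 3 * r - 1) (Op (S ∩ Rl x r) ω) with hB2
  set B3 := CrV (x.2 + 3 * r + 1) (x.2 + 5 * r + 2) (Op (S ∩ Ra x r) ω) with hB3
  set B4 := CrV (x.2 - 5 * r - 2) (x.2 - 3 * r - 1) (Op (S ∩ Rb x r) ω) with hB4
  have f1 : B1.Finite := crc_fin (by omega) _ _
  have f2 : B2.Finite := crc_fin (by omega) _ _
  have f3 : B3.Finite := crv_fin (by omega) _ _
  have f4 : B4.Finite := crv_fin (by omega) _ _
  set A' : Set (Set (ℤ × ℤ)) → Set (Set (ℤ × ℤ)) := fun B =>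
    {C | C ∈ CC x r R 0 (Op S ω) ∧ ∃ C' ∈ B, C'.Nonempty ∧ C' ⊆ C} with hA'
  have key : ∀ B : Set (Set (ℤ × ℤ)), B.Finite → (A' B).ncard ≤ B.ncard := fun B hB =>
    ncard_cls hB (fun C hC => hC.2) (fun C₁ h1 C₂ h2 h => hdis C₁ h1.1 C₂ h2.1 h)
  have hsub : CC x r R 0 (Op S ω) ⊆ A' B1 ∪ A' B2 ∪ A' B3 ∪ A' B4 := by
    intro C hC
    rcases four_F hr hR hC with h | h | h | h
    · exact Or.inl (Or.inl (Or.inl ⟨hC, h⟩))
    · exact Or.inl (Or.inl (Or.inr ⟨hC, h⟩))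
    · exact Or.inl (Or.inr ⟨hC, h⟩)
    · exact Or.inr ⟨hC, h⟩
  have hfin : (A' B1 ∪ A' B2 ∪ A' B3 ∪ A' B4).Finite := by
    refine (CC_finite x r R 0 (Op S ω)).subset ?_
    rintro C (((h | h) | h) | h)
    · exact h.1
    · exact h.1
    · exact h.1
    · exact h.1
  have h1 := Set.ncard_le_ncard hsub hfin
  have h2 := Set.ncard_union_le (A' B1 ∪ A' B2 ∪ A' B3) (A' B4)
  have h3 := Set.ncard_union_le (A' B1 ∪ A' B2) (A' B3)
  have h4 := Set.ncard_union_le (A' B1) (A' B2)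
  have k1 := key B1 f1
  have k2 := key B2 f2
  have k3 := key B3 f3
  have k4 := key B4 f4
  omega

/-- Four numbers. -/
theorem exp_four {l a b c d k : ℝ} (hl : 0 ≤ l) (h : k ≤ (a + b) + (c + d)) :
    Real.exp (l * k) ≤ (1 / 4) *
      ((Real.exp (4 * l * a) + Real.exp (4 * l * b)) +
        (Real.exp (4 * l * c) + Real.exp (4 * l * d))) := by
  have e : ∀ a b : ℝ, Real.exp (2 * l * (a + b)) ≤
      (1 / 2) * (Real.exp (4 * l * a) + Real.exp (4 * l * b)) := by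
    intro a b
    have e1 : Real.exp (2 * l * (a + b)) = Real.exp (2 * l * a) * Real.exp (2 * l * b) := by
      rw [← Real.exp_add]; congr 1; ring
    have e2 : ∀ a : ℝ, Real.exp (4 * l * a) = Real.exp (2 * l * a) ^ 2 := by
      intro a
      rw [← Real.exp_nat_mul]; congr 1; push_cast; ring
    rw [e1, e2, e2]
    nlinarith [sq_nonneg (Real.exp (2 * l * a) - Real.exp (2 * l * b))]
  have e' : ∀ a b : ℝ, Real.exp (l * (a + b)) ≤
      (1 / 2) * (Real.exp (2 * l * a) + Real.exp (2 * l * b)) := by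
    intro a b
    have e1 : Real.exp (l * (a + b)) = Real.exp (l * a) * Real.exp (l * b) := by
      rw [← Real.exp_add]; congr 1; ring
    have e2 : ∀ a : ℝ, Real.exp (2 * l * a) = Real.exp (l * a) ^ 2 := by
      intro a
      rw [← Real.exp_nat_mul]; congr 1; push_cast; ring
    rw [e1, e2, e2]
    nlinarith [sq_nonneg (Real.exp (l * a) - Real.exp (l * b))]
  refine (Real.exp_le_exp.2 (mul_le_mul_of_nonneg_left h hl)).trans ?_
  have h9 := e' (a + b) (c + d)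
  have h10 := e a b
  have h11 := e c d
  linarith

/-- Exponential moment of the number of the fresh crossing clusters. -/
theorem kf_expF (m : ℕ) (hQ : 0 < Q) (hQ1 : Q ≤ 1) (hV : VR Q) : ∃ l C : ℝ, 0 < l ∧ 0 < C ∧
    ∀ (r μ : ℤ), 1 ≤ μ → 2 * μ ≤ r → ∀ (x : ℤ × ℤ) (R' : ℤ), 64 * r ≤ R' →
      ∀ (D : Finset (ℤ × ℤ)) (η : Cfg), Good η → FewA m μ (bxx x R') D η →
      Ex Q D η (fun ω => Real.exp (l * (kf x r R' (D ∩ bxx x R') ω true 0 : ℝ))) ≤ C := by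
  classical
  obtain ⟨l1, C1, hl1, hC1, hH⟩ := rect_h (Q := Q) m hQ hQ1 hV
  obtain ⟨l2, C2, hl2, hC2, hVV⟩ := rect_v (Q := Q) m hQ hQ1 hV
  set l : ℝ := min l1 l2 / 4 with hl
  have hl0 : 0 < l := by
    rw [hl]
    have := lt_min hl1 hl2
    linarith
  have hll1 : 4 * l ≤ l1 := by
    have := min_le_left l1 l2
    rw [hl]
    linarith
  have hll2 : 4 * l ≤ l2 := by
    have := min_le_right l1 l2
    rw [hl]
    linarith
  refine ⟨l, max C1 C2, hl0, lt_max_of_lt_left hC1, fun r μ hμ hr x R' hR D η hη hF => ?_⟩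
  set D2 : Cfg → Finset (ℤ × ℤ) := fun ω =>
    rest (D ∩ bxx x R') (KF (bxx x R') (D ∩ bxx x R') ω true 0) with hD2
  have hup : ∀ (l' : ℝ) (N : Cfg → ℕ), 4 * l ≤ l' →
      Ex Q D η (fun ω => Real.exp (4 * l * (N ω : ℝ))) ≤
        Ex Q D η (fun ω => Real.exp (l' * (N ω : ℝ))) := fun l' N h => Ex_mono hQ fun S' _ =>
    Real.exp_le_exp.2 (mul_le_mul_of_nonneg_right h (Nat.cast_nonneg _))
  -- right
  have k1 : Ex Q D η (fun ω => Real.exp (4 * l *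
      ((CrC (x.1 + 3 * r + 1) (x.1 + 5 * r + 2) (Op (D2 ω ∩ Rr x r) ω)).ncard : ℝ))) ≤
      max C1 C2 := by
    refine (hup l1 _ hll1).trans (le_trans ?_ (le_max_left _ _))
    refine hH r μ hμ hr _ _ (x.2 - 5 * r - 2) (x.2 + 5 * r + 3) (by ring) (by ring) (bxx x R') D η hη
      (fun v hv => ?_) hF
    rw [mem_Rsq] at hv
    rw [mem_bxx2]
    omega
  -- left
  have k2 : Ex Q D η (fun ω => Real.exp (4 * l *
      ((CrC (x.1 - 5 * r - 2) (x.1 - 3 * r - 1) (Op (D2 ω ∩ Rl x r) ω)).ncard : ℝ))) ≤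
      max C1 C2 := by
    refine (hup l1 _ hll1).trans (le_trans ?_ (le_max_left _ _))
    refine hH r μ hμ hr _ _ (x.2 - 5 * r - 2) (x.2 + 5 * r + 3) (by ring) (by ring) (bxx x R') D η hη
      (fun v hv => ?_) hF
    rw [mem_Rsq] at hv
    rw [mem_bxx2]
    omega
  -- above
  have k3 : Ex Q D η (fun ω => Real.exp (4 * l *
      ((CrV (x.2 + 3 * r + 1) (x.2 + 5 * r + 2) (Op (D2 ω ∩ Ra x r) ω)).ncard : ℝ))) ≤
      max C1 C2 := by
    refine (hup l2 _ hll2).trans (le_trans ?_ (le_max_right _ _))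
    refine hVV r μ hμ hr (x.1 - 5 * r - 2) (x.1 + 5 * r + 3) _ _ (by ring) (by ring) (bxx x R') D η hη
      (fun v hv => ?_) hF
    rw [mem_Rsq] at hv
    rw [mem_bxx2]
    omega
  -- below
  have k4 : Ex Q D η (fun ω => Real.exp (4 * l *
      ((CrV (x.2 - 5 * r - 2) (x.2 - 3 * r - 1) (Op (D2 ω ∩ Rb x r) ω)).ncard : ℝ))) ≤
      max C1 C2 := by
    refine (hup l2 _ hll2).trans (le_trans ?_ (le_max_right _ _))
    refine hVV r μ hμ hr (x.1 - 5 * r - 2) (x.1 + 5 * r + 3) _ _ (by ring) (by ring) (bxx x R') D η hη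
      (fun v hv => ?_) hF
    rw [mem_Rsq] at hv
    rw [mem_bxx2]
    omega
  -- together
  have h5 : Ex Q D η (fun ω => Real.exp (l * (kf x r R' (D ∩ bxx x R') ω true 0 : ℝ))) ≤
      Ex Q D η (fun ω => (1 / 4) * ((Real.exp (4 * l *
        ((CrC (x.1 + 3 * r + 1) (x.1 + 5 * r + 2) (Op (D2 ω ∩ Rr x r) ω)).ncard : ℝ)) +
        Real.exp (4 * l *
        ((CrC (x.1 - 5 * r - 2) (x.1 - 3 * r - 1) (Op (D2 ω ∩ Rl x r) ω)).ncard : ℝ))) +
        (Real.exp (4 * l *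
        ((CrV (x.2 + 3 * r + 1) (x.2 + 5 * r + 2) (Op (D2 ω ∩ Ra x r) ω)).ncard : ℝ)) +
        Real.exp (4 * l *
        ((CrV (x.2 - 5 * r - 2) (x.2 - 3 * r - 1) (Op (D2 ω ∩ Rb x r) ω)).ncard : ℝ))))) := by
    refine Ex_mono hQ fun S _ => ?_
    generalize cf D η S = ω
    have h6 := kcF_le4 (x := x) (r := r) (R := R') (ω := ω) (S := D2 ω) (by omega) (by omega)
    refine exp_four hl0.le ?_
    rw [kf_true]
    exact_mod_cast (by omega : kc x r R' (D2 ω) ω ≤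
      ((CrC (x.1 + 3 * r + 1) (x.1 + 5 * r + 2) (Op (D2 ω ∩ Rr x r) ω)).ncard +
      (CrC (x.1 - 5 * r - 2) (x.1 - 3 * r - 1) (Op (D2 ω ∩ Rl x r) ω)).ncard) +
      ((CrV (x.2 + 3 * r + 1) (x.2 + 5 * r + 2) (Op (D2 ω ∩ Ra x r) ω)).ncard +
      (CrV (x.2 - 5 * r - 2) (x.2 - 3 * r - 1) (Op (D2 ω ∩ Rb x r) ω)).ncard))
  rw [Ex_mul_left, Ex_add, Ex_add, Ex_add] at h5
  linarith

/-- The few frozen clusters, duality. -/
theorem few_du {m : ℕ} {μ : ℤ} (h : FewA m μ (bxx x R) D η) :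
    FewA m μ (bxx (FKA.sh x) R) (D.image FKA.sh) (du η) := by
  intro a b c d hsub
  have hsub' : Rsq (a - 1) (b - 1) c d ⊆ bxx x R := by
    intro v hv
    have h1 : FKA.sh v ∈ Rsq a b c d := by
      rw [mem_Rsq] at hv ⊢
      simp only [FKA.sh]
      omega
    have h2 := hsub h1
    rw [mem_bxx_sh, shi_sh] at h2
    exact h2
  obtain ⟨⟨s, hse, hs⟩, ⟨t, hto, ht⟩⟩ := h (a - 1) (b - 1) c d hsub'
  have hF : ∀ b' : Bool, (∀ z, shi z ∈ {z | z ∈ Rsq (a - 1) (b - 1) c d ∧ z ∉ D ∧ η z = b'} ↔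
      z ∈ {z | z ∈ Rsq a b c d ∧ z ∉ D.image FKA.sh ∧ du η z = !b'}) := by
    intro b' z
    simp only [Set.mem_ofPred_eq, QC.mem_image_sh, mem_Rsq]
    have : du η z = (!b') ↔ η (shi z) = b' := by
      simp only [du, shi]
      cases η (z.1 - 1, z.2) <;> cases b' <;> simp
    rw [this]
    simp only [shi]
    constructor
    · rintro ⟨h1, h2⟩
      exact ⟨by omega, h2⟩
    · rintro ⟨h1, h2⟩
      exact ⟨by omega, h2⟩
  have hcl : ∀ b' : Bool, ∀ s u : ℤ × ℤ,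
      u ∈ cl {z | z ∈ Rsq (a - 1) (b - 1) c d ∧ z ∉ D ∧ η z = b'} s →
      FKA.sh u ∈ cl {z | z ∈ Rsq a b c d ∧ z ∉ D.image FKA.sh ∧ du η z = !b'} (FKA.sh s) := by
    intro b' s u hu
    have h1 := cl_sh (F := {z | z ∈ Rsq (a - 1) (b - 1) c d ∧ z ∉ D ∧ η z = b'})
      (F' := {z | z ∈ Rsq a b c d ∧ z ∉ D.image FKA.sh ∧ du η z = !b'})
      (fun v hv => by
        have h2 := (hF b' (FKA.sh v))
        rw [shi_sh] at h2
        exact h2.1 hv) (fun v hv => (hF b' v).2 hv) s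
    rw [h1]
    exact Set.mem_image_of_mem _ hu
  refine ⟨⟨fun i => FKA.sh (t i), fun i => ?_, fun v hv hvD hvo u hue hvu => ?_⟩,
    ⟨fun i => FKA.sh (s i), fun i => ?_, fun v hv hvD hvo u hue hvu => ?_⟩⟩
  · have := hto i
    rw [Int.odd_iff] at this
    rw [Int.even_iff]
    simp only [FKA.sh]
    omega
  · have h1 : shi v ∈ Rsq (a - 1 + μ) (b - 1 - μ) (c + μ) (d - μ) := by
      rw [mem_Rsq] at hv ⊢
      simp only [shi]
      omega
    obtain ⟨i, hi⟩ := ht (shi v) h1 (fun h2 => hvD (QC.mem_image_sh.2 h2)) (QC.du_true.1 hvo) (shi u)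
      (by
        rw [Int.even_iff] at hue
        rw [Int.odd_iff]
        simp only [shi]
        omega) (QC.cor_shi.2 hvu)
    refine ⟨i, ?_⟩
    have h3 := hcl false _ _ hi
    rw [sh_shi] at h3
    exact h3
  · have := hse i
    rw [Int.even_iff] at this
    rw [Int.odd_iff]
    simp only [FKA.sh]
    omega
  · have h1 : shi v ∈ Rsq (a - 1 + μ) (b - 1 - μ) (c + μ) (d - μ) := by
      rw [mem_Rsq] at hv ⊢
      simp only [shi]
      omega
    have h2 : η (shi v) = true := by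
      have : du η v = false := hvo
      simp only [du, Bool.not_eq_false'] at this
      exact this
    obtain ⟨i, hi⟩ := hs (shi v) h1 (fun h2 => hvD (QC.mem_image_sh.2 h2)) h2 (shi u)
      (by
        rw [Int.odd_iff] at hue
        rw [Int.even_iff]
        simp only [shi]
        omega) (QC.cor_shi.2 hvu)
    refine ⟨i, ?_⟩
    have h3 := hcl true _ _ hi
    rw [sh_shi] at h3
    exact h3

/-- **Tail of the number of the fresh crossing clusters.** -/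
theorem kf_tailF (m : ℕ) (hQ : 0 < Q) (hQ1 : Q ≤ 1) (hV : VR Q) : ∃ l C : ℝ, 0 < l ∧ 0 < C ∧
    ∀ (r μ : ℤ), 1 ≤ μ → 2 * μ ≤ r → ∀ (x : ℤ × ℤ) (R' : ℤ), 64 * r ≤ R' →
      ∀ (D : Finset (ℤ × ℤ)) (η : Cfg), Good η → FewA m μ (bxx x R') D η → ∀ j : ℕ,
      Pr Q D η {ω | j ≤ kf x r R' (D ∩ bxx x R') ω true 0} ≤ C * Real.exp (-(l * j)) ∧
      Pr Q D η {ω | j ≤ kf x r R' (D ∩ bxx x R') ω false 1} ≤ C * Real.exp (-(l * j)) := by
  classical
  obtain ⟨l, C, hl, hC, h⟩ := kf_expF (Q := Q) m hQ hQ1 hV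
  have key : ∀ (D : Finset (ℤ × ℤ)) (η : Cfg) (N : Cfg → ℕ) (j : ℕ),
      Ex Q D η (fun ω => Real.exp (l * (N ω : ℝ))) ≤ C →
      Pr Q D η {ω | j ≤ N ω} ≤ C * Real.exp (-(l * j)) := by
    intro D η N j hN
    have h3 : Pr Q D η {ω | j ≤ N ω} ≤
        Ex Q D η (fun ω => Real.exp (-(l * j)) * Real.exp (l * (N ω : ℝ))) := by
      refine Ex_mono hQ fun S _ => ?_
      by_cases h4 : j ≤ N (cf D η S)
      · rw [Set.indicator_of_mem (show cf D η S ∈ {ω | j ≤ N ω} from h4), Pi.one_apply,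
          ← Real.exp_add]
        refine Real.one_le_exp ?_
        have : (j : ℝ) ≤ N (cf D η S) := by exact_mod_cast h4
        nlinarith
      · rw [Set.indicator_of_notMem (show cf D η S ∉ {ω | j ≤ N ω} from h4)]
        positivity
    rw [Ex_mul_left] at h3
    refine h3.trans ?_
    rw [mul_comm C]
    exact mul_le_mul_of_nonneg_left hN (Real.exp_pos _).le
  refine ⟨l, C, hl, hC, fun r μ hμ hr x R' hR D η hη hF j => ⟨key _ _ _ _
    (h r μ hμ hr x R' hR D η hη hF), ?_⟩⟩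
  have h1 := h r μ hμ hr (FKA.sh x) R' hR (D.image FKA.sh) (du η) (f_dual.1 η hη) (few_du hF)
  have h2 := f_dual.2 Q D η (fun ω => Real.exp (l * (kf (FKA.sh x) r R'
    (D.image FKA.sh ∩ bxx (FKA.sh x) R') ω true 0 : ℝ))) hQ hη
  refine key _ _ _ _ (le_of_eq_of_le ?_ h1)
  refine Eq.trans ?_ h2.symm
  refine Ex_congr fun S _ => ?_
  have h4 := QC.kf_sh (x := x) (r := r) (R := R') (D := D ∩ bxx x R') (ω := cf D η S)
  have h5 : (D ∩ bxx x R').image FKA.sh = D.image FKA.sh ∩ bxx (FKA.sh x) R' := by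
    ext v
    rw [QC.mem_image_sh, Finset.mem_inter, Finset.mem_inter, QC.mem_image_sh, mem_bxx_sh]
  rw [h5] at h4
  rw [h4]

end Vale.Agent.P167.H722
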