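import Vale.Agent.P167.H108.CrW
import Vale.Agent.P167.H722.AnnF
import Vale.Agent.P167.H366.Step2

/-!
# P167, `0 < q < 1`: the crossing numbers of the interfaces are tight
-/

set_option autoImplicit false

namespace Vale.Agent.P167.H722

open Vale.Agent.P167.FK

/-- The tail of the number of the fresh crossing clusters. -/
theorem kfT {Q : ℝ} (hQ : 0 < Q) (hQ1 : Q < 1) : H108.KfT Q := fun m =>
  kf_tailF m hQ hQ1.le (H366.vr hQ hQ1)

/-- **The crossing numbers of the interface are tight**, `0 < q < 1`. -/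
theorem crossW_lt {q : ℝ} (hq0 : 0 < q) (hq1 : q < 1) : QE.I_crossW (QE.wq q) := by
  have h1 : √q < 1 := by
    rw [Real.sqrt_lt' one_pos]
    linarith
  exact H108.crossWF hq0 (kfT (Real.sqrt_pos.2 hq0) h1)

end Vale.Agent.P167.H722
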