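import Vale.Agent.P167.H262.R0
import Vale.Agent.P167.H562.Q.CB1

/-!
# P167, `0 < q ≤ 1`: number of the clusters which cross a rectangle with obstacles

`Rsq a b c d` is a rectangle of squares, `D` the set of the free squares of it. The obstacles `A₀`, `B₀`
are two sets of squares outside of `D`. A crossing cluster (from left to right) has the type
`(A₀, B₀)` if the squares of `A₀` are joined to the bottom side, and those of `B₀` are not, by squares
which do not belong to the cluster. `nt_exp`: the number of the crossing clusters of one type has an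
exponential moment, uniformly in the configuration outside of `D`. The clusters of the even sites are
explored row by row from the bottom; after each step the next crossing cluster of the given type exists
with probability at most `1 - c` (`H262.rough_rect_dual`).
-/

set_option autoImplicit false

namespace Vale.Agent.P167.H722

open Finset Vale.Agent.P167.FK Vale.Agent.P167.FKA
open Vale.Agent.P145.FB (PStep PConn step_of_corners)
open Vale.Agent.P167.H166 (cl cl_eq cl_parity rtg_mono)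
open Vale.Agent.P167.H262 (Rsq mem_Rsq Rsi rtg_rect CD)
open Vale.Agent.P167.H259 (f_markov)
open Vale.Agent.P167.H562.QM (cl_symm)
open Relation

variable {Q : ℝ} {a b c d : ℤ} {D D' : Finset (ℤ × ℤ)} {η ω : Cfg} {A₀ B₀ K : Set (ℤ × ℤ)}
  {F F' : Set (ℤ × ℤ)}

/-! ### odd sites reached from the bottom side -/

/-- The odd sites which are joined to the bottom side by squares of `F`. -/
def RL (c : ℤ) (F : Set (ℤ × ℤ)) : Set (ℤ × ℤ) :=
  {z | ∃ y : ℤ × ℤ, Odd (y.1 + y.2) ∧ y.2 ≤ c ∧ ReflTransGen (PStep F) y z}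

theorem RL_mono (h : F ⊆ F') : RL c F ⊆ RL c F' := by
  rintro z ⟨y, h1, h2, h3⟩
  exact ⟨y, h1, h2, rtg_mono h h3⟩

theorem RL_rtg {z z' : ℤ × ℤ} (h : z ∈ RL c F) (h' : ReflTransGen (PStep F) z z') :
    z' ∈ RL c F := by
  obtain ⟨y, h1, h2, h3⟩ := h
  exact ⟨y, h1, h2, h3.trans h'⟩

theorem RL_cor {v z z' : ℤ × ℤ} (hv : v ∈ F) (hz : Cor v z) (hz' : Cor v z')
    (ho : Odd (z.1 + z.2)) (ho' : Odd (z'.1 + z'.2)) (h : z ∈ RL c F) : z' ∈ RL c F := by
  by_cases hne : z = z'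
  · rw [← hne]; exact h
  · refine RL_rtg h (ReflTransGen.single ?_)
    rw [Int.odd_iff] at ho ho'
    exact step_of_corners (m := v.1) (n := v.2) (e := 1) hv hz.1 hz.2 hz'.1 hz'.2 ho ho' hne

theorem RL_odd {z : ℤ × ℤ} (h : z ∈ RL c F) : Odd (z.1 + z.2) := by
  obtain ⟨y, h1, -, h3⟩ := h
  have h4 := cl_parity (show z ∈ cl F y from h3)
  rw [Int.odd_iff] at h1 ⊢
  omega

theorem cor_mk {v1 v2 u1 u2 : ℤ} :
    Cor (v1, v2) (u1, u2) ↔ (u1 = v1 ∨ u1 = v1 + 1) ∧ (u2 = v2 ∨ u2 = v2 + 1) := Iff.rfl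

theorem odd_mk {u1 u2 : ℤ} (h : (u1 + u2) % 2 = 1) :
    Odd (((u1, u2) : ℤ × ℤ).1 + ((u1, u2) : ℤ × ℤ).2) := Int.odd_iff.2 h

theorem even_mk {u1 u2 : ℤ} (h : (u1 + u2) % 2 = 0) :
    Even (((u1, u2) : ℤ × ℤ).1 + ((u1, u2) : ℤ × ℤ).2) := Int.even_iff.2 h

/-- The squares of the rectangle around an even site. -/
theorem star_conn {s w v z z' : ℤ × ℤ} (hs : Even (s.1 + s.2))
    (hF : ∀ v ∈ Rsq a b c d, Cor v s → v ∈ F) (hw : w ∈ Rsq a b c d) (hws : Cor w s)
    (hv : v ∈ Rsq a b c d) (hvs : Cor v s) (hz : Cor w z) (hzR : z ∈ RL c F)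
    (hz' : Cor v z') (ho' : Odd (z'.1 + z'.2)) : z' ∈ RL c F := by
  have ho := RL_odd hzR
  -- all odd corners of `w`
  have h1 : ∀ t, Cor w t → Odd (t.1 + t.2) → t ∈ RL c F := fun t ht hto =>
    RL_cor (hF w hw hws) hz ht ho hto hzR
  -- a square which shares an odd corner with `w`
  have h2 : ∀ x ∈ Rsq a b c d, Cor x s → ∀ p, Cor w p → Cor x p → Odd (p.1 + p.2) →
      ∀ t, Cor x t → Odd (t.1 + t.2) → t ∈ RL c F := fun x hx hxs p hp hxp hpo t ht hto =>
    RL_cor (hF x hx hxs) hxp ht hpo hto (h1 p hp hpo)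
  obtain ⟨s1, s2⟩ := s
  obtain ⟨w1, w2⟩ := w
  obtain ⟨v1, v2⟩ := v
  have kws := cor_mk.1 hws
  have kvs := cor_mk.1 hvs
  have kw := mem_Rsq.1 hw
  have kv := mem_Rsq.1 hv
  simp only at kw kv
  rw [Int.even_iff] at hs
  simp only at hs
  obtain ⟨q1, hq1, hq1'⟩ : ∃ q1, (q1 = v1 ∨ q1 = v1 + 1) ∧ q1 ≠ s1 := by
    by_cases h : s1 = v1
    · exact ⟨v1 + 1, by omega, by omega⟩
    · exact ⟨v1, by omega, by omega⟩
  obtain ⟨q2, hq2, hq2'⟩ : ∃ q2, (q2 = w2 ∨ q2 = w2 + 1) ∧ q2 ≠ s2 := by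
    by_cases h : s2 = w2
    · exact ⟨w2 + 1, by omega, by omega⟩
    · exact ⟨w2, by omega, by omega⟩
  have ho1 : Odd (((q1, s2) : ℤ × ℤ).1 + ((q1, s2) : ℤ × ℤ).2) := odd_mk (by omega)
  have ho2 : Odd (((s1, q2) : ℤ × ℤ).1 + ((s1, q2) : ℤ × ℤ).2) := odd_mk (by omega)
  by_cases e1 : v1 = w1
  · by_cases e2 : v2 = w2
    · subst e1 e2
      exact h1 z' hz' ho'
    · -- the same column
      exact h2 (v1, v2) hv hvs (q1, s2) (cor_mk.2 (by omega)) (cor_mk.2 (by omega)) ho1 z' hz' ho'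
  · by_cases e2 : v2 = w2
    · exact h2 (v1, v2) hv hvs (s1, q2) (cor_mk.2 (by omega)) (cor_mk.2 (by omega)) ho2 z' hz' ho'
    · -- opposite squares: go through `(v1, w2)`
      have hx : (v1, w2) ∈ Rsq a b c d := mem_Rsq.2 ⟨kv.1, kv.2.1, kw.2.2.1, kw.2.2.2⟩
      have hxs : Cor (v1, w2) (s1, s2) := cor_mk.2 (by omega)
      have h3 : ∀ t, Cor (v1, w2) t → Odd (t.1 + t.2) → t ∈ RL c F :=
        h2 (v1, w2) hx hxs (s1, q2) (cor_mk.2 (by omega)) (cor_mk.2 (by omega)) ho2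
      exact RL_cor (v := (v1, v2)) (z := (q1, s2)) (hF _ hv hvs) (cor_mk.2 (by omega)) hz' ho1 ho'
        (h3 _ (cor_mk.2 (by omega)) ho1)

/-! ### crossing clusters -/

/-- The clusters of `F` which join the column `a` to the column `b`. -/
def CrC (a b : ℤ) (F : Set (ℤ × ℤ)) : Set (Set (ℤ × ℤ)) :=
  {C | ∃ u : ℤ × ℤ, Even (u.1 + u.2) ∧ u.1 = a ∧ C = cl F u ∧ ∃ t ∈ C, t.1 = b}

/-- The open squares of `D` which touch `C`. -/
def OpT (D : Finset (ℤ × ℤ)) (ω : Cfg) (C : Set (ℤ × ℤ)) : Set (ℤ × ℤ) :=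
  {v | v ∈ D ∧ ω v = true ∧ ∃ u ∈ C, Cor v u}

/-- The type of a crossing cluster with the squares `F`. -/
def Ty (a b c d : ℤ) (A₀ B₀ F : Set (ℤ × ℤ)) : Prop :=
  (∀ v ∈ A₀, ∀ z : ℤ × ℤ, Cor v z → Odd (z.1 + z.2) → z ∈ RL c (↑(Rsq a b c d) \ F)) ∧
  ∀ v ∈ B₀, ∀ z : ℤ × ℤ, Cor v z → Odd (z.1 + z.2) → z ∉ RL c (↑(Rsq a b c d) \ F)

/-- The crossing clusters of the type `(A₀, B₀)`. -/
def CrT (a b c d : ℤ) (A₀ B₀ : Set (ℤ × ℤ)) (D : Finset (ℤ × ℤ)) (ω : Cfg) :
    Set (Set (ℤ × ℤ)) :=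
  {C | C ∈ CrC a b (Op D ω) ∧ Ty a b c d A₀ B₀ (OpT D ω C)}

/-- The number of the crossing clusters of the type `(A₀, B₀)`. -/
noncomputable def NT (a b c d : ℤ) (A₀ B₀ : Set (ℤ × ℤ)) (D : Finset (ℤ × ℤ)) (ω : Cfg) : ℕ :=
  (CrT a b c d A₀ B₀ D ω).ncard

theorem crc_fin (hab : a < b) (D : Finset (ℤ × ℤ)) (ω : Cfg) : (CrC a b (Op D ω)).Finite := by
  classical
  set W : Finset (ℤ × ℤ) := D.biUnion fun v =>
    {v, (v.1 + 1, v.2), (v.1, v.2 + 1), (v.1 + 1, v.2 + 1)} with hW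
  refine ((W.finite_toSet).image (cl (Op D ω))).subset ?_
  rintro C ⟨u, h1, h2, rfl, t, ht, h3⟩
  refine ⟨u, ?_, rfl⟩
  have ht' : ReflTransGen (PStep (Op D ω)) u t := ht
  rcases ReflTransGen.cases_head ht' with h4 | ⟨w, h4, -⟩
  · rw [← h4] at h3; omega
  · have h5 := (cor_of_step h4).1
    have h6 : (min u.1 w.1, min u.2 w.2) ∈ D := h4.2.2.1
    rw [Finset.mem_coe, hW, Finset.mem_biUnion]
    refine ⟨_, h6, ?_⟩
    simp only [Finset.mem_insert, Finset.mem_singleton, Prod.ext_iff]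
    simp only [Cor] at h5
    omega

theorem crt_fin (hab : a < b) (D : Finset (ℤ × ℤ)) (ω : Cfg) : (CrT a b c d A₀ B₀ D ω).Finite :=
  (crc_fin hab D ω).subset fun _ h => h.1

theorem opt_rest {s u : ℤ × ℤ} (hse : Even (s.1 + s.2)) (hue : Even (u.1 + u.2))
    (hu : u ∉ cl (Op D ω) s) :
    OpT (rest D (cl (Op D ω) s)) ω (cl (Op D ω) u) = OpT D ω (cl (Op D ω) u) := by
  ext v
  constructor
  · rintro ⟨h1, h2, h3⟩
    exact ⟨(mem_rest.1 h1).1, h2, h3⟩
  · rintro ⟨h1, h2, w, hw, hc⟩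
    refine ⟨mem_rest.2 ⟨h1, fun x hx hcx => hu ?_⟩, h2, w, hw, hc⟩
    have hwe := cl_even hue hw
    have hxe := cl_even hse hx
    have h4 : w ∈ cl (Op D ω) s := by
      by_cases hne : x = w
      · rw [← hne]; exact hx
      · exact ReflTransGen.tail hx (step_of_cor ⟨h1, h2⟩ hcx hc hxe hwe hne)
    rw [← cl_eq h4, cl_eq hw]
    exact ReflTransGen.refl

theorem crt_rest (hab : a < b) {s : ℤ × ℤ} (hse : Even (s.1 + s.2)) :
    CrT a b c d A₀ B₀ (rest D (cl (Op D ω) s)) ω =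
      CrT a b c d A₀ B₀ D ω \ {cl (Op D ω) s} := by
  ext C
  constructor
  · rintro ⟨⟨u, hue, hua, rfl, t, ht, htb⟩, h2⟩
    by_cases hu : u ∈ cl (Op D ω) s
    · rw [cl_iso hu] at ht
      rw [Set.mem_singleton_iff] at ht
      rw [ht] at htb
      omega
    · rw [cl_rest hse hue hu] at ht h2 ⊢
      rw [opt_rest hse hue hu] at h2
      refine ⟨⟨⟨u, hue, hua, rfl, t, ht, htb⟩, h2⟩, fun h => hu ?_⟩
      rw [Set.mem_singleton_iff] at h
      rw [← h]
      exact ReflTransGen.refl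
  · rintro ⟨⟨⟨u, hue, hua, rfl, t, ht, htb⟩, h2⟩, h3⟩
    by_cases hu : u ∈ cl (Op D ω) s
    · exact absurd (cl_eq hu) h3
    · refine ⟨?_, ?_⟩
      · rw [← cl_rest hse hue hu] at ht ⊢
        exact ⟨u, hue, hua, rfl, t, ht, htb⟩
      · rw [opt_rest hse hue hu]
        exact h2

open Classical in
theorem nt_rest (hab : a < b) {s : ℤ × ℤ} (hse : Even (s.1 + s.2)) :
    NT a b c d A₀ B₀ D ω = NT a b c d A₀ B₀ (rest D (cl (Op D ω) s)) ω +
      if cl (Op D ω) s ∈ CrT a b c d A₀ B₀ D ω then 1 else 0 := by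
  unfold NT
  rw [crt_rest hab hse]
  by_cases h : cl (Op D ω) s ∈ CrT a b c d A₀ B₀ D ω
  · rw [if_pos h]
    exact (Set.ncard_sdiff_singleton_add_one h (crt_fin hab D ω)).symm
  · rw [if_neg h, add_zero, Set.sdiff_singleton_eq_self h]

/-! ### the state of the exploration -/

/-- `D` is the set of the free squares after the exploration of the clusters with union `K`. -/
structure Inv (a b c d : ℤ) (A₀ B₀ : Set (ℤ × ℤ)) (D : Finset (ℤ × ℤ)) (K : Set (ℤ × ℤ)) :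
    Prop where
  sub : D ⊆ Rsq a b c d
  ev : ∀ u ∈ K, Even (u.1 + u.2)
  out : ∀ v ∈ Rsq a b c d, v ∉ D → v ∈ A₀ ∨ v ∈ B₀ ∨ ∃ u ∈ K, Cor v u
  far : ∀ v ∈ D, ∀ u ∈ K, ¬ Cor v u
  low : ∀ v ∈ Rsq a b c d, (∃ u ∈ K, Cor v u) → ∀ z : ℤ × ℤ, Cor v z → Odd (z.1 + z.2) →
    z ∈ RL c (↑(Rsq a b c d) \ ↑D)

theorem Inv.step (h : Inv a b c d A₀ B₀ D K) {s : ℤ × ℤ} (hse : Even (s.1 + s.2))
    (hs1 : a ≤ s.1) (hs2 : s.1 ≤ b) (hs3 : c ≤ s.2) (hs4 : s.2 ≤ d) (hab : a < b) (hcd : c < d)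
    (hmin : ∀ t : ℤ × ℤ, Even (t.1 + t.2) → a ≤ t.1 → t.1 ≤ b → c ≤ t.2 → t.2 < s.2 → t ∈ K) :
    Inv a b c d A₀ B₀ (rest D (cl (Op D ω) s)) (K ∪ cl (Op D ω) s) := by
  have hDD : rest D (cl (Op D ω) s) ⊆ D := fun v hv => (mem_rest.1 hv).1
  have hR : (↑(Rsq a b c d) \ ↑D : Set (ℤ × ℤ)) ⊆ ↑(Rsq a b c d) \ ↑(rest D (cl (Op D ω) s)) :=
    fun v hv => ⟨hv.1, fun h => hv.2 (hDD h)⟩
  refine ⟨hDD.trans h.sub, ?_, ?_, ?_, ?_⟩
  · rintro u (hu | hu)
    · exact h.ev u hu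
    · exact cl_even hse hu
  · intro v hv hvD
    by_cases hvD' : v ∈ D
    · rw [mem_rest] at hvD
      push Not at hvD
      obtain ⟨u, hu, hc⟩ := hvD hvD'
      exact Or.inr (Or.inr ⟨u, Or.inr hu, hc⟩)
    · rcases h.out v hv hvD' with h1 | h1 | ⟨u, hu, hc⟩
      · exact Or.inl h1
      · exact Or.inr (Or.inl h1)
      · exact Or.inr (Or.inr ⟨u, Or.inl hu, hc⟩)
  · rintro v hv u (hu | hu)
    · exact h.far v (hDD hv) u hu
    · exact (mem_rest.1 hv).2 u hu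
  · rintro v hv ⟨u, hu | hu, hc⟩ z hz hzo
    · exact RL_mono hR (h.low v hv ⟨u, hu, hc⟩ z hz hzo)
    · -- the squares around the sites of the new cluster
      have hF : ∀ x ∈ cl (Op D ω) s, ∀ v ∈ Rsq a b c d, Cor v x →
          v ∈ (↑(Rsq a b c d) \ ↑(rest D (cl (Op D ω) s)) : Set (ℤ × ℤ)) := fun x hx v hv hvx =>
        ⟨hv, fun h' => (mem_rest.1 h').2 x hx hvx⟩
      -- a square at `s`
      have h0 : ∀ v ∈ Rsq a b c d, Cor v s → ∀ z : ℤ × ℤ, Cor v z → Odd (z.1 + z.2) →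
          z ∈ RL c (↑(Rsq a b c d) \ ↑(rest D (cl (Op D ω) s))) := by
        intro v hv hvs z hz hzo
        have hFs := hF s ReflTransGen.refl
        obtain ⟨s1, s2⟩ := s
        simp only at hs1 hs2 hs3 hs4 hmin
        have hse' := Int.even_iff.1 hse
        simp only at hse'
        by_cases hb : s2 = c
        · -- the bottom row
          subst hb
          by_cases hx : s1 < b
          · have hw : (s1, s2) ∈ Rsq a b s2 d := mem_Rsq.2 ⟨hs1, hx, le_refl _, hcd⟩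
            exact star_conn (w := (s1, s2)) (z := (s1 + 1, s2)) hse hFs hw (cor_mk.2 (by omega)) hv
              hvs (cor_mk.2 (by omega)) ⟨(s1 + 1, s2), odd_mk (by omega), le_refl _,
                ReflTransGen.refl⟩ hz hzo
          · have hw : (s1 - 1, s2) ∈ Rsq a b s2 d := mem_Rsq.2 ⟨(by omega : a ≤ s1 - 1),
              (by omega : s1 - 1 < b), le_refl _, hcd⟩
            exact star_conn (w := (s1 - 1, s2)) (z := (s1 - 1, s2)) hse hFs hw
              (cor_mk.2 (by omega)) hv hvs (cor_mk.2 (by omega)) ⟨(s1 - 1, s2), odd_mk (by omega),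
                le_refl _, ReflTransGen.refl⟩ hz hzo
        · -- a square below `s`
          by_cases hx : s1 < b
          · have ht : (s1 + 1, s2 - 1) ∈ K := hmin _ (even_mk (by omega)) (by simp only; omega)
              (by simp only; omega) (by simp only; omega) (by simp only; omega)
            have hw : (s1, s2 - 1) ∈ Rsq a b c d := mem_Rsq.2 ⟨hs1, hx,
              (by omega : c ≤ s2 - 1), (by omega : s2 - 1 < d)⟩
            have h1 := h.low (s1, s2 - 1) hw ⟨_, ht, cor_mk.2 (by omega)⟩ (s1, s2 - 1)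
              (cor_mk.2 (by omega)) (odd_mk (by omega))
            exact star_conn (w := (s1, s2 - 1)) (z := (s1, s2 - 1)) hse hFs hw
              (cor_mk.2 (by omega)) hv hvs (cor_mk.2 (by omega)) (RL_mono hR h1) hz hzo
          · have ht : (s1 - 1, s2 - 1) ∈ K := hmin _ (even_mk (by omega)) (by simp only; omega)
              (by simp only; omega) (by simp only; omega) (by simp only; omega)
            have hw : (s1 - 1, s2 - 1) ∈ Rsq a b c d := mem_Rsq.2 ⟨(by omega : a ≤ s1 - 1),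
              (by omega : s1 - 1 < b), (by omega : c ≤ s2 - 1), (by omega : s2 - 1 < d)⟩
            have h1 := h.low (s1 - 1, s2 - 1) hw ⟨_, ht, cor_mk.2 (by omega)⟩ (s1, s2 - 1)
              (cor_mk.2 (by omega)) (odd_mk (by omega))
            exact star_conn (w := (s1 - 1, s2 - 1)) (z := (s1, s2 - 1)) hse hFs hw
              (cor_mk.2 (by omega)) hv hvs (cor_mk.2 (by omega)) (RL_mono hR h1) hz hzo
      -- along the cluster
      have h1 : ∀ x, ReflTransGen (PStep (Op D ω)) s x → ∀ v ∈ Rsq a b c d, Cor v x →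
          ∀ z : ℤ × ℤ, Cor v z → Odd (z.1 + z.2) →
          z ∈ RL c (↑(Rsq a b c d) \ ↑(rest D (cl (Op D ω) s))) := by
        intro x hx
        induction hx with
        | refl => exact h0
        | @tail x y hsx hxy ih =>
          intro v hv hvy z hz hzo
          have h2 := cor_of_step hxy
          have h3 : (min x.1 y.1, min x.2 y.2) ∈ Rsq a b c d := h.sub hxy.2.2.1
          have hxe : Even (x.1 + x.2) := cl_even hse (show x ∈ cl (Op D ω) s from hsx)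
          have hye : Even (y.1 + y.2) := (FKA.even_step hxy).1 hxe
          set m : ℤ × ℤ := (min x.1 y.1, min x.2 y.2) with hm
          have h4 : ∃ p, Cor m p ∧ Odd (p.1 + p.2) := by
            have hxe' := Int.even_iff.1 hxe
            obtain ⟨⟨k1, k2⟩, -⟩ := h2
            by_cases hh : x.2 = m.2
            · exact ⟨(x.1, m.2 + 1), ⟨k1, Or.inr rfl⟩, odd_mk (by omega)⟩
            · exact ⟨(x.1, m.2), ⟨k1, Or.inl rfl⟩, odd_mk (by omega)⟩
          obtain ⟨p, hp, hpo⟩ := h4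
          exact star_conn hye (hF y (ReflTransGen.tail hsx hxy)) h3 h2.2 hv hvy hp
            (ih m h3 h2.1 p hp hpo) hz hzo
      exact h1 u hu v hv hc z hz hzo

end Vale.Agent.P167.H722
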