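import Vale.Agent.P167.H722.Row

/-!
# P167, `0 < q ≤ 1`: number of the clusters which cross a rectangle with obstacles, continued

`nt_pr`: after each step of the exploration there is a further crossing cluster of the given type with
probability at most `1 - c`. `nt_exp`: the exponential moment.
-/

set_option autoImplicit false

namespace Vale.Agent.P167.H722

open Finset Vale.Agent.P167.FK Vale.Agent.P167.FKA
open Vale.Agent.P145.FB (PStep PConn step_of_corners)
open Vale.Agent.P167.H166 (cl cl_eq cl_parity rtg_mono)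
open Vale.Agent.P167.H262 (Rsq mem_Rsq Rsi rtg_rect CD rough_rect_dual mem_Db_rect)
open Vale.Agent.P167.H259 (f_markov)
open Relation

variable {Q : ℝ} {a b c d : ℤ} {D D' : Finset (ℤ × ℤ)} {η ω : Cfg} {A₀ B₀ K : Set (ℤ × ℤ)}
  {F F' : Set (ℤ × ℤ)}

theorem cor_da (v : ℤ × ℤ) : Cor v (da v) ∧ Odd ((da v).1 + (da v).2) := by
  unfold da
  split_ifs with h
  · rw [Int.even_iff] at h
    exact ⟨cor_mk.2 (by omega), odd_mk (by omega)⟩
  · rw [Int.even_iff] at h
    exact ⟨cor_mk.2 (by omega), odd_mk (by omega)⟩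

theorem cor_db (v : ℤ × ℤ) : Cor v (db v) ∧ Odd ((db v).1 + (db v).2) := by
  unfold db
  split_ifs with h
  · rw [Int.even_iff] at h
    exact ⟨cor_mk.2 (by omega), odd_mk (by omega)⟩
  · rw [Int.even_iff] at h
    exact ⟨cor_mk.2 (by omega), odd_mk (by omega)⟩

/-- The odd sites of the bottom side. -/
def Bot (c : ℤ) : Set (ℤ × ℤ) := {z | Odd (z.1 + z.2) ∧ z.2 ≤ c}

/-- The odd sites of the top side. -/
def Top' (d : ℤ) : Set (ℤ × ℤ) := {z | Odd (z.1 + z.2) ∧ d ≤ z.2}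

/-- The lower barrier. -/
def XX (a b c d : ℤ) (A₀ : Set (ℤ × ℤ)) (D : Finset (ℤ × ℤ)) : Set (ℤ × ℤ) :=
  {z | Odd (z.1 + z.2) ∧ (z ∈ RL c (↑(Rsq a b c d) \ ↑D) ∨ ∃ v ∈ A₀, Cor v z)}

/-- The upper barrier. -/
def YY (d : ℤ) (B₀ : Set (ℤ × ℤ)) : Set (ℤ × ℤ) :=
  {z | Odd (z.1 + z.2) ∧ (d ≤ z.2 ∨ ∃ v ∈ B₀, Cor v z)}

theorem bot_XX : Bot c ⊆ XX a b c d A₀ D :=
  fun z hz => ⟨hz.1, Or.inl ⟨z, hz.1, hz.2, ReflTransGen.refl⟩⟩

theorem top_YY : Top' d ⊆ YY d B₀ := fun _ hz => ⟨hz.1, Or.inl hz.2⟩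

/-- A crossing cluster excludes a path of other squares from the bottom side to the top side. -/
theorem no_top (hab : a < b) (hcd : c < d) (hD : D ⊆ Rsq a b c d) {C : Set (ℤ × ℤ)}
    (hC : C ∈ CrC a b (Op D ω)) {z : ℤ × ℤ}
    (hz : z ∈ RL c (↑(Rsq a b c d) \ OpT D ω C)) : z.2 < d := by
  by_contra hcon
  push Not at hcon
  obtain ⟨y, hyo, hyc, hyz⟩ := hz
  obtain ⟨u, hue, hua, rfl, t, ht, htb⟩ := hC
  set G : Set (ℤ × ℤ) := OpT D ω (cl (Op D ω) u) with hG
  -- the path of open squares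
  have h1 : ∀ t, ReflTransGen (PStep (Op D ω)) u t →
      ReflTransGen (PStep (G ∩ ↑(Rsq a b c d))) u t := by
    intro t ht
    induction ht with
    | refl => exact ReflTransGen.refl
    | @tail x y hux hxy ih =>
      exact ih.tail ⟨hxy.1, hxy.2.1, ⟨hxy.2.2.1, hxy.2.2.2, x, hux, (cor_of_step hxy).1⟩,
        hD hxy.2.2.1⟩
  have h2 := h1 t ht
  have hut : u ≠ t := fun h => by rw [← h] at htb; omega
  have huR : u ∈ Rsi a b c d := by
    rcases ReflTransGen.cases_head h2 with h3 | ⟨w, h3, -⟩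
    · exact absurd h3 hut
    · have h4 := (cor_of_step h3).1
      have h5 := mem_Rsq.1 (Finset.mem_coe.1 h3.2.2.2)
      simp only [Cor] at h4
      show a ≤ u.1 ∧ u.1 ≤ b ∧ c ≤ u.2 ∧ u.2 ≤ d
      omega
  have h3 : PConn G (Rsi a b c d) u t := (rtg_rect huR).1 h2
  -- the path of the other squares
  have h4 : ∀ z, ReflTransGen (PStep (↑(Rsq a b c d) \ G)) y z →
      ReflTransGen (PStep (Gᶜ ∩ ↑(Rsq a b c d))) y z := fun z hz =>
    rtg_mono (F := ↑(Rsq a b c d) \ G) (F' := Gᶜ ∩ ↑(Rsq a b c d)) (fun v hv => ⟨hv.2, hv.1⟩) hz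
  have h5 := h4 z hyz
  have hyzn : y ≠ z := fun h => by rw [← h] at hcon; omega
  have hyR : y ∈ Rsi a b c d := by
    rcases ReflTransGen.cases_head h5 with h6 | ⟨w, h6, -⟩
    · exact absurd h6 hyzn
    · have h7 := (cor_of_step h6).1
      have h8 := mem_Rsq.1 (Finset.mem_coe.1 h6.2.2.2)
      simp only [Cor] at h7
      show a ≤ y.1 ∧ y.1 ≤ b ∧ c ≤ y.2 ∧ y.2 ≤ d
      omega
  have h6 : PConn Gᶜ (Rsi a b c d) y z := (rtg_rect hyR).1 h5
  have hzR : a ≤ z.1 ∧ z.1 ≤ b ∧ c ≤ z.2 ∧ z.2 ≤ d := h6.right_mem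
  have hyR' : a ≤ y.1 ∧ y.1 ≤ b ∧ c ≤ y.2 ∧ y.2 ≤ d := hyR
  refine Vale.Agent.P145.FB.easy (F := G) (a := a) (b := b) (c := c) (d := d) h3 hua htb
    (Int.even_iff.1 hue) h6 (Int.odd_iff.1 hyo) (Or.inl (by omega)) (Or.inl (by omega))

/-- A closed path between the barriers excludes the crossing clusters of the type `(A₀, B₀)`. -/
theorem nt_zero (hab : a < b) (hcd : c < d) (hD : D ⊆ Rsq a b c d)
    (hω : ω ∈ CD D (XX a b c d A₀ D) (YY d B₀)) : NT a b c d A₀ B₀ D ω = 0 := by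
  unfold NT
  rw [Set.ncard_eq_zero (crt_fin hab D ω), Set.eq_empty_iff_forall_notMem]
  rintro C ⟨hC, hT⟩
  obtain ⟨u, ⟨huo, hu⟩, v, ⟨hvo, hv⟩, h⟩ := hω
  have h1 : u ∈ RL c (↑(Rsq a b c d) \ OpT D ω C) := by
    rcases hu with hu | ⟨w, hw, hc⟩
    · refine RL_mono ?_ hu
      exact fun x hx => ⟨hx.1, fun h' => hx.2 h'.1⟩
    · exact hT.1 w hw u hc huo
  have h2 : v ∈ RL c (↑(Rsq a b c d) \ OpT D ω C) := by
    refine RL_rtg h1 (rtg_mono ?_ h)
    rintro x ⟨hx1, hx2⟩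
    exact ⟨hD hx2, fun h' => hx1 h'.2.1⟩
  rcases hv with hv | ⟨w, hw, hc⟩
  · have := no_top hab hcd hD hC h2
    omega
  · exact hT.2 w hw v hc hvo h2

/-- The probability of a further crossing cluster. -/
theorem nt_pr (hQ : 0 < Q) (hQ1 : Q ≤ 1) (hab : a < b) (hcd : c < d) (hη : Good η)
    (h : Inv a b c d A₀ B₀ D K) {c₀ : ℝ}
    (hc₀ : c₀ ≤ Pr Q (Rsq a b c d) eta0 (CD (Rsq a b c d) (Bot c) (Top' d))) :
    Pr Q D η {ω | 1 ≤ NT a b c d A₀ B₀ D ω} ≤ 1 - c₀ := by
  have hsd : Rsq a b c d \ (Rsq a b c d \ D) = D := by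
    ext v
    rw [Finset.mem_sdiff, Finset.mem_sdiff]
    exact ⟨fun hv => by by_contra h'; exact hv.2 ⟨hv.1, h'⟩, fun hv => ⟨h.sub hv, fun h' => h'.2 hv⟩⟩
  have h1 := rough_rect_dual (Q := Q) (η := η) (D := D) (L := Rsq a b c d \ D) (a := a) (b := b)
    (c := c) (d := d) hQ hQ1 hη (A := Bot c) (B := Top' d) (A' := XX a b c d A₀ D)
    (B' := YY d B₀) (fun z hz => mem_Db_rect hz.1 (Or.inr (Or.inr (Or.inl hz.2))))
    (fun z hz => mem_Db_rect hz.1 (Or.inr (Or.inr (Or.inr hz.2)))) bot_XX top_YY (by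
      intro e he heS
      rw [Finset.mem_sdiff] at he
      obtain ⟨k1, k2⟩ := cor_da e
      obtain ⟨k3, k4⟩ := cor_db e
      rcases h.out e heS he.2 with h2 | h2 | h2
      · exact Or.inl ⟨⟨k2, Or.inr ⟨e, h2, k1⟩⟩, ⟨k4, Or.inr ⟨e, h2, k3⟩⟩⟩
      · exact Or.inr ⟨⟨k2, Or.inr ⟨e, h2, k1⟩⟩, ⟨k4, Or.inr ⟨e, h2, k3⟩⟩⟩
      · exact Or.inl ⟨⟨k2, Or.inl (h.low e heS h2 _ k1 k2)⟩,
          ⟨k4, Or.inl (h.low e heS h2 _ k3 k4)⟩⟩) (by rw [hsd])
  rw [hsd] at h1
  have h2 : Pr Q D η {ω | 1 ≤ NT a b c d A₀ B₀ D ω} ≤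
      Pr Q D η (CD D (XX a b c d A₀ D) (YY d B₀))ᶜ := by
    refine Pr_mono hQ fun ω hω h' => ?_
    have h3 := nt_zero hab hcd h.sub h'
    have h4 : 1 ≤ NT a b c d A₀ B₀ D ω := hω
    omega
  rw [Pr_compl hQ] at h2
  linarith

/-! ### the exploration -/

/-- The number of the sites which are still to be explored. -/
noncomputable def left' (a b c d : ℤ) (K : Set (ℤ × ℤ)) : ℕ :=
  {s : ℤ × ℤ | Even (s.1 + s.2) ∧ s ∈ Rsi a b c d ∧ s ∉ K}.ncard

theorem left_fin (K : Set (ℤ × ℤ)) :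
    {s : ℤ × ℤ | Even (s.1 + s.2) ∧ s ∈ Rsi a b c d ∧ s ∉ K}.Finite :=
  (Vale.Agent.P153.Topo.rect_finite a b c d).subset fun _ h => h.2.1

theorem ind_crt {s : ℤ × ℤ} (K : Set (ℤ × ℤ)) {y : ℝ} :
    Ind (rest D K) (fun ω => {ω | cl (Op D ω) s = K}.indicator 1 ω *
      {ω | K ∈ CrT a b c d A₀ B₀ D ω}.indicator (fun _ => y) ω) := by
  intro ω ω' h
  have h1 := ind_cl (D := D) (s := s) K ω ω' h
  simp only
  rw [h1]
  by_cases hK : cl (Op D ω') s = K
  · have hK' : cl (Op D ω) s = K := by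
      by_contra hcon
      rw [Set.indicator_of_notMem (show ω ∉ {ω | cl (Op D ω) s = K} from hcon),
        Set.indicator_of_mem (show ω' ∈ {ω | cl (Op D ω) s = K} from hK)] at h1
      norm_num at h1
    congr 1
    have key : ∀ ω ω' : Cfg, (∀ v, v ∉ rest D K → ω v = ω' v) → cl (Op D ω) s = K →
        cl (Op D ω') s = K → K ∈ CrT a b c d A₀ B₀ D ω → K ∈ CrT a b c d A₀ B₀ D ω' := by
      rintro ω ω' h hK1 hK2 ⟨⟨u, hue, hua, hu, ht⟩, hT⟩
      have hsu : u ∈ cl (Op D ω) s := by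
        rw [hK1, hu]; exact ReflTransGen.refl
      refine ⟨⟨u, hue, hua, ?_, ht⟩, ?_⟩
      · rw [← hK1] at hu
        have : u ∈ cl (Op D ω') s := by rw [hK2, ← hK1]; exact hsu
        rw [cl_eq this, hK2]
      · have e : OpT D ω' K = OpT D ω K := by
          ext v
          constructor
          · rintro ⟨h1, h2, w, hw, hc⟩
            refine ⟨h1, ?_, w, hw, hc⟩
            rw [h v fun h' => (mem_rest.1 h').2 w hw hc]
            exact h2
          · rintro ⟨h1, h2, w, hw, hc⟩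
            refine ⟨h1, ?_, w, hw, hc⟩
            rw [← h v fun h' => (mem_rest.1 h').2 w hw hc]
            exact h2
        rw [e]
        exact hT
    by_cases h2 : K ∈ CrT a b c d A₀ B₀ D ω
    · rw [Set.indicator_of_mem (show ω ∈ {ω | K ∈ CrT a b c d A₀ B₀ D ω} from h2),
        Set.indicator_of_mem (show ω' ∈ {ω | K ∈ CrT a b c d A₀ B₀ D ω} from
          key ω ω' h hK' hK h2)]
    · rw [Set.indicator_of_notMem (show ω ∉ {ω | K ∈ CrT a b c d A₀ B₀ D ω} from h2),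
        Set.indicator_of_notMem (show ω' ∉ {ω | K ∈ CrT a b c d A₀ B₀ D ω} from
          fun h3 => h2 (key ω' ω (fun v hv => (h v hv).symm) hK hK' h3))]
  · rw [Set.indicator_of_notMem (show ω' ∉ {ω | cl (Op D ω) s = K} from hK), zero_mul, zero_mul]

/-- **Exponential moment of the number of the crossing clusters of one type.** -/
theorem nt_exp (hQ : 0 < Q) (hQ1 : Q ≤ 1) (hab : a < b) (hcd : c < d) {c₀ y β : ℝ}
    (hc₀ : c₀ ≤ Pr Q (Rsq a b c d) eta0 (CD (Rsq a b c d) (Bot c) (Top' d)))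
    (hy : 1 ≤ y) (hya : y * (1 - c₀) < 1) (hβ : β * (1 - y * (1 - c₀)) = y - 1) :
    ∀ (n : ℕ) (D : Finset (ℤ × ℤ)) (K : Set (ℤ × ℤ)) (η : Cfg), left' a b c d K ≤ n →
      Inv a b c d A₀ B₀ D K → Good η → Ex Q D η (fun ω => y ^ NT a b c d A₀ B₀ D ω) ≤
        1 + β * Pr Q D η {ω | 1 ≤ NT a b c d A₀ B₀ D ω} := by
  classical
  have hβ0 : 0 ≤ β := by
    by_contra h
    push Not at h
    nlinarith
  -- no site is left
  have hzero : ∀ (D : Finset (ℤ × ℤ)) (K : Set (ℤ × ℤ)) (η : Cfg),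
      (∀ s : ℤ × ℤ, Even (s.1 + s.2) → s ∈ Rsi a b c d → s ∈ K) →
      Inv a b c d A₀ B₀ D K → Ex Q D η (fun ω => y ^ NT a b c d A₀ B₀ D ω) ≤
        1 + β * Pr Q D η {ω | 1 ≤ NT a b c d A₀ B₀ D ω} := by
    intro D K η hall hI
    have hD : D = ∅ := by
      rw [Finset.eq_empty_iff_forall_notMem]
      intro v hv
      obtain ⟨h1, h2⟩ := cor_pa v
      have h3 := mem_Rsq.1 (hI.sub hv)
      refine hI.far v hv (pa v) (hall _ h2 ?_) h1
      simp only [Cor] at h1
      show a ≤ (pa v).1 ∧ (pa v).1 ≤ b ∧ c ≤ (pa v).2 ∧ (pa v).2 ≤ d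
      omega
    subst hD
    have h0 : ∀ ω, NT a b c d A₀ B₀ ∅ ω = 0 := by
      intro ω
      unfold NT
      rw [Set.ncard_eq_zero (crt_fin hab ∅ ω), Set.eq_empty_iff_forall_notMem]
      rintro C ⟨⟨u, hue, hua, rfl, t, ht, htb⟩, -⟩
      have ht' : ReflTransGen (PStep (Op ∅ ω)) u t := ht
      rcases ReflTransGen.cases_head ht' with h4 | ⟨w, h4, -⟩
      · rw [← h4] at htb
        omega
      · exact absurd h4.2.2.1 (Finset.notMem_empty _)
    have h1 := mul_nonneg hβ0 (Pr_nonneg (D := ∅) (η := η) hQ {ω | 1 ≤ NT a b c d A₀ B₀ ∅ ω})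
    simp only [h0, pow_zero] at *
    rw [Ex_const hQ]
    linarith
  intro n
  induction n with
  | zero =>
    intro D K η hn hI _
    refine hzero D K η (fun s hs1 hs2 => ?_) hI
    by_contra hcon
    have h1 : {s : ℤ × ℤ | Even (s.1 + s.2) ∧ s ∈ Rsi a b c d ∧ s ∉ K} = ∅ :=
      (Set.ncard_eq_zero (left_fin K)).1 (Nat.le_zero.1 hn)
    exact (Set.eq_empty_iff_forall_notMem.1 h1 s) ⟨hs1, hs2, hcon⟩
  | succ n ih =>
    intro D K η hn hI hη
    by_cases hall : ∀ s : ℤ × ℤ, Even (s.1 + s.2) → s ∈ Rsi a b c d → s ∈ K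
    · exact hzero D K η hall hI
    · push Not at hall
      -- the lowest site
      obtain ⟨s, ⟨hse, hsR, hsK⟩, hmin⟩ : ∃ s ∈ {s : ℤ × ℤ | Even (s.1 + s.2) ∧
          s ∈ Rsi a b c d ∧ s ∉ K}, ∀ t ∈ {s : ℤ × ℤ | Even (s.1 + s.2) ∧ s ∈ Rsi a b c d ∧
          s ∉ K}, s.2 ≤ t.2 := by
        obtain ⟨s, h1, h2, h3⟩ := hall
        exact Set.exists_min_image _ (fun s : ℤ × ℤ => s.2) (left_fin K) ⟨s, h1, h2, h3⟩
      have hsR' : a ≤ s.1 ∧ s.1 ≤ b ∧ c ≤ s.2 ∧ s.2 ≤ d := hsR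
      have hmin' : ∀ t : ℤ × ℤ, Even (t.1 + t.2) → a ≤ t.1 → t.1 ≤ b → c ≤ t.2 → t.2 < s.2 →
          t ∈ K := by
        intro t h1 h2 h3 h4 h5
        by_contra hcon
        have := hmin t ⟨h1, ⟨h2, h3, h4, by omega⟩, hcon⟩
        omega
      set k : Cfg → Set (ℤ × ℤ) := fun ω => cl (Op D ω) s with hk
      have e1 : (1 : ℝ) = Ex Q D η (fun _ => 1) := (Ex_const hQ 1).symm
      rw [e1]
      unfold Pr
      rw [Ex_split (α := Set (ℤ × ℤ)) k (fun ω => y ^ NT a b c d A₀ B₀ D ω),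
        Ex_split (α := Set (ℤ × ℤ)) k (fun _ => (1 : ℝ)),
        Ex_split (α := Set (ℤ × ℤ)) k ({ω | 1 ≤ NT a b c d A₀ B₀ D ω}.indicator 1),
        Finset.mul_sum, ← Finset.sum_add_distrib]
      refine Finset.sum_le_sum fun L hL => ?_
      rw [Finset.mem_image] at hL
      obtain ⟨S0, hS0, hKS⟩ := hL
      have hsL : s ∈ L := by rw [← hKS]; exact ReflTransGen.refl
      set D' := rest D L with hD'
      have hsub : D' ⊆ D := fun v hv => (mem_rest.1 hv).1
      have hleft : left' a b c d (K ∪ L) ≤ n := by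
        have h1 : left' a b c d (K ∪ L) < left' a b c d K := by
          refine Set.ncard_lt_ncard ⟨fun t ht => ⟨ht.1, ht.2.1, fun h => ht.2.2 (Or.inl h)⟩,
            fun h => ?_⟩ (left_fin K)
          exact (h (show s ∈ _ from ⟨hse, hsR, hsK⟩)).2.2 (Or.inr hsL)
        omega
      -- the type of the explored cluster
      set T : Cfg → Prop := fun ω => L ∈ CrT a b c d A₀ B₀ D ω with hTdef
      set I : Cfg → ℝ := {ω | k ω = L}.indicator 1 with hI'
      have hI0 : ∀ ω, 0 ≤ I ω := ind_nonneg _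
      have hIz : ∀ ω, k ω ≠ L → I ω = 0 := fun ω h =>
        Set.indicator_of_notMem (show ω ∉ {ω | k ω = L} from h) _
      have hInt : ∀ ω, k ω = L → NT a b c d A₀ B₀ D ω = NT a b c d A₀ B₀ D' ω +
          if T ω then 1 else 0 := by
        intro ω hω
        have h1 := nt_rest (A₀ := A₀) (B₀ := B₀) (c := c) (d := d) hab (D := D) (ω := ω) hse
        have h2 : cl (Op D ω) s = L := hω
        rw [h2] at h1
        exact h1
      set G1 : Cfg → ℝ := fun ω => I ω * {ω | T ω}.indicator (fun _ => y) ω with hG1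
      set G2 : Cfg → ℝ := fun ω => I ω * {ω | T ω}.indicator (fun _ => 1) ω with hG2
      have hInd1 : Ind D' G1 := ind_crt L
      have hInd2 : Ind D' G2 := ind_crt L
      have hInd : Ind D' I := ind_cl L
      have hInd3 : Ind D' (fun ω => I ω - G2 ω) := fun ω ω' h => by
        show I ω - G2 ω = I ω' - G2 ω'
        rw [hInd ω ω' h, hInd2 ω ω' h]
      -- the two sides
      have h1 : Ex Q D η (fun ω => I ω * y ^ NT a b c d A₀ B₀ D ω) =
          Ex Q D η (fun ω => (G1 ω + (I ω - G2 ω)) * y ^ NT a b c d A₀ B₀ D' ω) := by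
        refine Ex_congr fun S _ => ?_
        by_cases h : k (cf D η S) = L
        · rw [hInt _ h]
          simp only [hG1, hG2]
          by_cases hT : T (cf D η S)
          · rw [if_pos hT, Set.indicator_of_mem (show cf D η S ∈ {ω | T ω} from hT),
              Set.indicator_of_mem (show cf D η S ∈ {ω | T ω} from hT), pow_succ]
            ring
          · rw [if_neg hT, Set.indicator_of_notMem (show cf D η S ∉ {ω | T ω} from hT),
              Set.indicator_of_notMem (show cf D η S ∉ {ω | T ω} from hT), add_zero]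
            ring
        · simp only [hG1, hG2, hIz _ h, zero_mul, sub_zero, add_zero]
      have h2 : Ex Q D η (fun ω => I ω * {ω | 1 ≤ NT a b c d A₀ B₀ D ω}.indicator 1 ω) =
          Ex Q D η G2 + Ex Q D η (fun ω => (I ω - G2 ω) *
            {ω | 1 ≤ NT a b c d A₀ B₀ D' ω}.indicator 1 ω) := by
        rw [← Ex_add]
        refine Ex_congr fun S _ => ?_
        by_cases h : k (cf D η S) = L
        · have h3 := hInt _ h
          simp only [hG2]
          by_cases hT : T (cf D η S)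
          · rw [if_pos hT] at h3
            rw [Set.indicator_of_mem (show cf D η S ∈ {ω | T ω} from hT),
              Set.indicator_of_mem (show cf D η S ∈ {ω | 1 ≤ NT a b c d A₀ B₀ D ω} by
                show 1 ≤ NT a b c d A₀ B₀ D (cf D η S); omega)]
            simp
          · rw [if_neg hT, add_zero] at h3
            rw [Set.indicator_of_notMem (show cf D η S ∉ {ω | T ω} from hT)]
            have e : {ω | 1 ≤ NT a b c d A₀ B₀ D ω}.indicator (1 : Cfg → ℝ) (cf D η S) =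
                {ω | 1 ≤ NT a b c d A₀ B₀ D' ω}.indicator 1 (cf D η S) := by
              by_cases h7 : 1 ≤ NT a b c d A₀ B₀ D' (cf D η S)
              · rw [Set.indicator_of_mem (show cf D η S ∈ {ω | 1 ≤ NT a b c d A₀ B₀ D' ω} from h7),
                  Set.indicator_of_mem (show cf D η S ∈ {ω | 1 ≤ NT a b c d A₀ B₀ D ω} by
                    show 1 ≤ NT a b c d A₀ B₀ D (cf D η S); omega)]
              · rw [Set.indicator_of_notMem (show cf D η S ∉ {ω | 1 ≤ NT a b c d A₀ B₀ D' ω}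
                    from h7),
                  Set.indicator_of_notMem (show cf D η S ∉ {ω | 1 ≤ NT a b c d A₀ B₀ D ω} by
                    show ¬ 1 ≤ NT a b c d A₀ B₀ D (cf D η S); omega)]
            rw [e]
            ring
        · simp only [hG2, hIz _ h, zero_mul, sub_zero, add_zero]
      have h3 := markov f_markov hQ hsub hη (F := fun ω => y ^ NT a b c d A₀ B₀ D' ω)
        (G := fun ω => G1 ω + (I ω - G2 ω)) (fun ω ω' h => by
          show G1 ω + (I ω - G2 ω) = G1 ω' + (I ω' - G2 ω')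
          rw [hInd1 ω ω' h, hInd ω ω' h, hInd2 ω ω' h])
      have h4 := markov f_markov hQ hsub hη
        (F := {ω | 1 ≤ NT a b c d A₀ B₀ D' ω}.indicator 1) hInd3
      rw [h1, h2, h3, h4]
      have h5 : ∀ f g h k : Cfg → ℝ, (∀ S ⊆ D, f (cf D η S) ≤ g (cf D η S) +
          β * (h (cf D η S) + k (cf D η S))) →
          Ex Q D η f ≤ Ex Q D η g + β * (Ex Q D η h + Ex Q D η k) := by
        intro f g h k hfg
        rw [← Ex_add, ← Ex_mul_left, ← Ex_add]
        exact Ex_mono hQ hfg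
      refine h5 _ _ _ _ fun S hS => ?_
      by_cases h : k (cf D η S) = L
      · have hgood := f_good.1 D η S hη
        have hI2 : Inv a b c d A₀ B₀ D' (K ∪ L) := by
          have h6 := hI.step (ω := cf D η S) hse hsR'.1 hsR'.2.1 hsR'.2.2.1 hsR'.2.2.2 hab hcd
            hmin'
          have h7 : cl (Op D (cf D η S)) s = L := h
          rw [h7] at h6
          exact h6
        have h6 := ih D' (K ∪ L) (cf D η S) hleft hI2 hgood
        have h7 := nt_pr hQ hQ1 hab hcd hgood hI2 hc₀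
        have h8 : I (cf D η S) = 1 := by
          rw [hI', Set.indicator_of_mem (show cf D η S ∈ {ω | k ω = L} from h)]
          rfl
        simp only [hG1, hG2, h8, one_mul, mul_one]
        have hP : Ex Q D' (cf D η S) ({ω | 1 ≤ NT a b c d A₀ B₀ D' ω}.indicator 1) =
            Pr Q D' (cf D η S) {ω | 1 ≤ NT a b c d A₀ B₀ D' ω} := rfl
        rw [hP]
        by_cases hT : T (cf D η S)
        · rw [Set.indicator_of_mem (show cf D η S ∈ {ω | T ω} from hT),
            Set.indicator_of_mem (show cf D η S ∈ {ω | T ω} from hT)]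
          have h9 := mul_le_mul_of_nonneg_left h6 (show 0 ≤ y by linarith)
          have h10 := mul_le_mul_of_nonneg_left h7 (mul_nonneg (show 0 ≤ y by linarith) hβ0)
          nlinarith
        · rw [Set.indicator_of_notMem (show cf D η S ∉ {ω | T ω} from hT),
            Set.indicator_of_notMem (show cf D η S ∉ {ω | T ω} from hT)]
          linarith
      · simp only [hG1, hG2, hIz _ h, zero_mul, sub_zero, add_zero, mul_zero]
        exact le_refl _

end Vale.Agent.P167.H722
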