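import Vale.Agent.P167.H722.Row3
import Vale.Agent.P167.H562.Q.CB2

/-!
# P167, `0 < q ≤ 1`: number of the clusters which cross a rectangle, frozen squares

`fr_exp`: the number of the clusters which cross a rectangle from left to right has an exponential
moment, for all configurations of the frozen squares of the rectangle and outside of it, such that the
closed frozen squares are covered by `m₁` connected sets and the open frozen squares by `m₂` connected
sets. `blk_exp`: the same for a rectangle which is covered by `m` boxes with one frozen set of each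
colour.
-/

set_option autoImplicit false

namespace Vale.Agent.P167.H722

open Finset Vale.Agent.P167.FK Vale.Agent.P167.FKA
open Vale.Agent.P145.FB (PStep PConn step_of_corners)
open Vale.Agent.P167.H166 (cl cl_eq cl_parity rtg_mono)
open Vale.Agent.P167.H262 (Rsq mem_Rsq Rsi rtg_rect CD rough_rect_dual mem_Db_rect)
open Vale.Agent.P167.H259 (f_markov)
open Vale.Agent.P167.H562.QM (cl_symm QC OneP exists_even)
open Relation

variable {Q : ℝ} {a b c d : ℤ} {D E : Finset (ℤ × ℤ)} {η ω : Cfg} {m : ℕ}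

/-- The squares of the rectangle around an even site, general form. -/
theorem star_gen {P : ℤ × ℤ → Prop} {s w v z z' : ℤ × ℤ} (hs : Even (s.1 + s.2))
    (hP : ∀ v ∈ Rsq a b c d, Cor v s → ∀ z z' : ℤ × ℤ, Cor v z → Cor v z' → Odd (z.1 + z.2) →
      Odd (z'.1 + z'.2) → P z → P z') (hw : w ∈ Rsq a b c d) (hws : Cor w s)
    (hv : v ∈ Rsq a b c d) (hvs : Cor v s) (hz : Cor w z) (ho : Odd (z.1 + z.2)) (hzP : P z)
    (hz' : Cor v z') (ho' : Odd (z'.1 + z'.2)) : P z' := by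
  -- all odd corners of `w`
  have h1 : ∀ t, Cor w t → Odd (t.1 + t.2) → P t := fun t ht hto =>
    hP w hw hws z t hz ht ho hto hzP
  -- a square which shares an odd corner with `w`
  have h2 : ∀ x ∈ Rsq a b c d, Cor x s → ∀ p, Cor w p → Cor x p → Odd (p.1 + p.2) →
      ∀ t, Cor x t → Odd (t.1 + t.2) → P t := fun x hx hxs p hp hxp hpo t ht hto =>
    hP x hx hxs p t hxp ht hpo hto (h1 p hp hpo)
  obtain ⟨s1, s2⟩ := s
  obtain ⟨w1, w2⟩ := w
  obtain ⟨v1, v2⟩ := v
  have kws := cor_mk.1 hws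
  have kvs := cor_mk.1 hvs
  have kw := mem_Rsq.1 hw
  have kv := mem_Rsq.1 hv
  simp only at kw kv
  rw [Int.even_iff] at hs
  simp only at hs
  obtain ⟨q1, hq1, hq1'⟩ : ∃ q1, (q1 = v1 ∨ q1 = v1 + 1) ∧ q1 ≠ s1 := by
    by_cases h : s1 = v1
    · exact ⟨v1 + 1, by omega, by omega⟩
    · exact ⟨v1, by omega, by omega⟩
  obtain ⟨q2, hq2, hq2'⟩ : ∃ q2, (q2 = w2 ∨ q2 = w2 + 1) ∧ q2 ≠ s2 := by
    by_cases h : s2 = w2
    · exact ⟨w2 + 1, by omega, by omega⟩
    · exact ⟨w2, by omega, by omega⟩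
  have ho1 : Odd (((q1, s2) : ℤ × ℤ).1 + ((q1, s2) : ℤ × ℤ).2) := odd_mk (by omega)
  have ho2 : Odd (((s1, q2) : ℤ × ℤ).1 + ((s1, q2) : ℤ × ℤ).2) := odd_mk (by omega)
  by_cases e1 : v1 = w1
  · by_cases e2 : v2 = w2
    · subst e1 e2
      exact h1 z' hz' ho'
    · -- the same column
      exact h2 (v1, v2) hv hvs (q1, s2) (cor_mk.2 (by omega)) (cor_mk.2 (by omega)) ho1 z' hz' ho'
  · by_cases e2 : v2 = w2
    · exact h2 (v1, v2) hv hvs (s1, q2) (cor_mk.2 (by omega)) (cor_mk.2 (by omega)) ho2 z' hz' ho'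
    · -- opposite squares: go through `(v1, w2)`
      have hx : (v1, w2) ∈ Rsq a b c d := mem_Rsq.2 ⟨kv.1, kv.2.1, kw.2.2.1, kw.2.2.2⟩
      have hxs : Cor (v1, w2) (s1, s2) := cor_mk.2 (by omega)
      have h3 : ∀ t, Cor (v1, w2) t → Odd (t.1 + t.2) → P t :=
        h2 (v1, w2) hx hxs (s1, q2) (cor_mk.2 (by omega)) (cor_mk.2 (by omega)) ho2
      exact hP (v1, v2) hv hvs (q1, s2) z' (cor_mk.2 (by omega)) hz' ho1 ho'
        (h3 _ (cor_mk.2 (by omega)) ho1)

/-- A square has an odd corner. -/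
theorem exists_odd (v : ℤ × ℤ) : ∃ u : ℤ × ℤ, Odd (u.1 + u.2) ∧ Cor v u :=
  ⟨da v, (cor_da v).2, (cor_da v).1⟩

/-- The squares of the rectangle which touch a cluster. -/
def Tch (a b c d : ℤ) (C : Set (ℤ × ℤ)) : Set (ℤ × ℤ) :=
  {v | v ∈ Rsq a b c d ∧ ∃ u ∈ C, Cor v u}

theorem step_odd {F : Set (ℤ × ℤ)} {v z z' : ℤ × ℤ} (hv : v ∈ F) (hz : Cor v z) (hz' : Cor v z')
    (ho : Odd (z.1 + z.2)) (ho' : Odd (z'.1 + z'.2)) : ReflTransGen (PStep F) z z' := by
  by_cases hne : z = z'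
  · rw [hne]
  · rw [Int.odd_iff] at ho ho'
    exact ReflTransGen.single
      (step_of_corners (m := v.1) (n := v.2) (e := 1) hv hz.1 hz.2 hz'.1 hz'.2 ho ho' hne)

theorem oconn_tch {s : ℤ × ℤ} (hse : Even (s.1 + s.2)) (hD : D ⊆ Rsq a b c d) :
    OConn (Tch a b c d (cl (Op D ω) s)) := by
  rintro v ⟨hv, u, hu, hvu⟩ w ⟨hw, u', hu', hwu'⟩ z z' hz hz' ho ho'
  set Λ : Set (ℤ × ℤ) := Tch a b c d (cl (Op D ω) s) with hΛ
  have hstep : ∀ x ∈ cl (Op D ω) s, ∀ v ∈ Rsq a b c d, Cor v x → ∀ z1 z2 : ℤ × ℤ, Cor v z1 →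
      Cor v z2 → Odd (z1.1 + z1.2) → Odd (z2.1 + z2.2) → ReflTransGen (PStep Λ) z z1 →
      ReflTransGen (PStep Λ) z z2 := by
    intro x hx v hv hvx z1 z2 h1 h2 h3 h4 h5
    exact h5.trans (step_odd (F := Λ) (v := v) ⟨hv, x, hx, hvx⟩ h1 h2 h3 h4)
  have hpath : ReflTransGen (PStep (Op D ω)) u u' := by
    have h1 : s ∈ cl (Op D ω) u := cl_symm hu
    exact ReflTransGen.trans h1 hu'
  have key : ∀ x, ReflTransGen (PStep (Op D ω)) u x → ∀ v ∈ Rsq a b c d, Cor v x →
      ∀ t : ℤ × ℤ, Cor v t → Odd (t.1 + t.2) → ReflTransGen (PStep Λ) z t := by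
    intro x hx
    induction hx with
    | refl =>
      intro v' hv' hv'u t ht hto
      exact star_gen (P := fun t => ReflTransGen (PStep Λ) z t) (cl_even hse hu) (hstep u hu) hv
        hvu hv' hv'u hz ho ReflTransGen.refl ht hto
    | @tail x y hux hxy ih =>
      intro v' hv' hv'y t ht hto
      have h2 := cor_of_step hxy
      have hy : y ∈ cl (Op D ω) s := ReflTransGen.trans hu (ReflTransGen.tail hux hxy)
      set k : ℤ × ℤ := (min x.1 y.1, min x.2 y.2) with hk
      have h3 : k ∈ Rsq a b c d := hD hxy.2.2.1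
      obtain ⟨p, hpo, hp⟩ := exists_odd k
      exact star_gen (P := fun t => ReflTransGen (PStep Λ) z t) (cl_even hse hy) (hstep y hy) h3
        h2.2 hv' hv'y hp hpo (ih k h3 h2.1 p hp hpo) ht hto
  exact key u' hpath w hw hwu' z' hz' ho'

/-! ### the clusters of the open frozen squares -/

/-- The union of the clusters of the sites `s i`. -/
def VS (F : Set (ℤ × ℤ)) (s : Fin m → ℤ × ℤ) : Set (ℤ × ℤ) := {u | ∃ i, u ∈ cl F (s i)}

theorem crc_le {s : Fin m → ℤ × ℤ} (hE : E ⊆ Rsq a b c d) (hse : ∀ i, Even ((s i).1 + (s i).2))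
    (hV : ∀ v ∈ Rsq a b c d, v ∉ E → ω v = true → ∀ u : ℤ × ℤ, Even (u.1 + u.2) → Cor v u →
      u ∈ VS (Op (Rsq a b c d) ω) s) (hab : a < b) :
    (CrC a b (Op (Rsq a b c d) ω)).ncard ≤
      (CrC a b (Op (rest E (VS (Op (Rsq a b c d) ω) s)) ω)).ncard + m := by
  classical
  set S := Rsq a b c d with hS
  set V := VS (Op S ω) s with hVdef
  have h1 : CrC a b (Op S ω) ⊆ CrC a b (Op (rest E V) ω) ∪
      Set.range (fun i => cl (Op S ω) (s i)) := by
    rintro C ⟨u, hue, hua, rfl, ht⟩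
    by_cases hu : u ∈ V
    · obtain ⟨i, hi⟩ := hu
      exact Or.inr ⟨i, (cl_eq hi).symm⟩
    · left
      have heq : cl (Op S ω) u = cl (Op (rest E V) ω) u := by
        apply Set.Subset.antisymm
        · intro t ht
          have ht' : ReflTransGen (PStep (Op S ω)) u t := ht
          clear ht
          induction ht' with
          | refl => exact ReflTransGen.refl
          | @tail x y hux hxy ih =>
            have hx : x ∉ V := by
              rintro ⟨i, hi⟩
              exact hu ⟨i, ReflTransGen.trans hi (cl_symm (show x ∈ cl (Op S ω) u from hux))⟩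
            have hxe : Even (x.1 + x.2) := cl_even hue hux
            have hc := cor_of_step hxy
            obtain ⟨h6, h7⟩ := hxy.2.2
            set k : ℤ × ℤ := (min x.1 y.1, min x.2 y.2) with hk
            have hkE : k ∈ E := by
              by_contra hcon
              exact hx (hV k h6 hcon h7 x hxe hc.1)
            refine ReflTransGen.tail ih ⟨hxy.1, hxy.2.1, mem_rest.2 ⟨hkE, ?_⟩, h7⟩
            rintro t ⟨i, hi⟩ hkt
            have hte : Even (t.1 + t.2) := cl_even (hse i) hi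
            refine hx ⟨i, ?_⟩
            by_cases hne : t = x
            · rw [← hne]; exact hi
            · exact ReflTransGen.tail hi (step_of_cor (v := k) ⟨h6, h7⟩ hkt hc.1 hte hxe hne)
        · intro t ht
          refine rtg_mono (F := Op (rest E V) ω) (F' := Op S ω) ?_ ht
          exact fun v hv => ⟨hE (mem_rest.1 hv.1).1, hv.2⟩
      rw [heq] at ht ⊢
      exact ⟨u, hue, hua, rfl, ht⟩
  have hfin : (CrC a b (Op (rest E V) ω) ∪ Set.range (fun i => cl (Op S ω) (s i))).Finite :=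
    (crc_fin hab _ ω).union (Set.finite_range _)
  refine (Set.ncard_le_ncard h1 hfin).trans ((Set.ncard_union_le _ _).trans ?_)
  refine Nat.add_le_add_left ?_ _
  rw [← Set.image_univ]
  refine (Set.ncard_image_le Set.finite_univ).trans ?_
  rw [Set.ncard_univ, Nat.card_eq_fintype_card, Fintype.card_fin]

theorem ind_tup (s K : Fin m → _) {S : Finset (ℤ × ℤ)} (hE : E ⊆ S) :
    Ind (rest E {u | ∃ i : Fin m, u ∈ (K i : Set (ℤ × ℤ))})
      ({ω | (fun i : Fin m => cl (Op S ω) (s i)) = K}.indicator (1 : Cfg → ℝ)) := by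
  classical
  have key : ∀ ω ω' : Cfg, (∀ v, v ∉ rest E {u | ∃ i : Fin m, u ∈ (K i : Set (ℤ × ℤ))} →
      ω v = ω' v) → (fun i : Fin m => cl (Op S ω) (s i)) = K →
      (fun i : Fin m => cl (Op S ω') (s i)) = K := by
    intro ω ω' h hK
    funext i
    have h1 := ind_cl (D := S) (s := s i) (K i) ω ω' (fun v hv => h v fun hv' => hv
      (mem_rest.2 ⟨hE (mem_rest.1 hv').1, fun u hu => (mem_rest.1 hv').2 u ⟨i, hu⟩⟩))
    have h2 : cl (Op S ω) (s i) = K i := congrFun hK i
    by_contra hcon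
    rw [Set.indicator_of_mem (show ω ∈ {ω | cl (Op S ω) (s i) = K i} from h2),
      Set.indicator_of_notMem (show ω' ∉ {ω | cl (Op S ω) (s i) = K i} from hcon)] at h1
    norm_num at h1
  intro ω ω' h
  by_cases h1 : (fun i : Fin m => cl (Op S ω) (s i)) = K
  · rw [Set.indicator_of_mem (show ω ∈ {ω | (fun i : Fin m => cl (Op S ω) (s i)) = K} from h1),
      Set.indicator_of_mem (show ω' ∈ {ω | (fun i : Fin m => cl (Op S ω) (s i)) = K} from
        key ω ω' h h1)]
    rfl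
  · rw [Set.indicator_of_notMem (show ω ∉ {ω | (fun i : Fin m => cl (Op S ω) (s i)) = K} from h1),
      Set.indicator_of_notMem (show ω' ∉ {ω | (fun i : Fin m => cl (Op S ω) (s i)) = K} from
        fun h2 => h1 (key ω' ω (fun v hv => (h v hv).symm) h2))]

/-- **Exponential moment of the number of the crossing clusters, with frozen squares.** -/
theorem fr_exp (m₁ m₂ : ℕ) {c₀ : ℝ} (hc : 0 < c₀) : ∃ l C : ℝ, 0 < l ∧ 0 < C ∧ ∀ (Q : ℝ), 0 < Q →
    Q ≤ 1 → ∀ (a b c d : ℤ), a < b → c < d →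
    c₀ ≤ Pr Q (Rsq a b c d) eta0 (CD (Rsq a b c d) (Bot c) (Top' d)) →
    ∀ (E : Finset (ℤ × ℤ)) (η : Cfg) (Λ : Fin m₁ → Set (ℤ × ℤ)) (s : Fin m₂ → ℤ × ℤ),
      E ⊆ Rsq a b c d → Good η → (∀ i, OConn (Λ i)) →
      (∀ i, ∀ v ∈ Λ i, v ∈ Rsq a b c d ∧ v ∉ E) →
      (∀ v ∈ Rsq a b c d, v ∉ E → η v = false → ∃ i, v ∈ Λ i) →
      (∀ i, Even ((s i).1 + (s i).2)) →
      (∀ v ∈ Rsq a b c d, v ∉ E → η v = true → ∀ u : ℤ × ℤ, Even (u.1 + u.2) → Cor v u →
        ∃ i, u ∈ cl {z | z ∈ Rsq a b c d ∧ z ∉ E ∧ η z = true} (s i)) →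
      Ex Q E η (fun ω => Real.exp (l * ((CrC a b (Op (Rsq a b c d) ω)).ncard : ℝ))) ≤ C := by
  classical
  obtain ⟨l, C, hl, hC, hns⟩ := ns_exp (m₁ + m₂) hc
  refine ⟨l, Real.exp (l * m₂) * C, hl, by positivity,
    fun Q hQ hQ1 a b c d hab hcd hc₀ E η Λ s hE hη hΛ1 hΛ2 hΛ3 hse hs => ?_⟩
  set S := Rsq a b c d with hS
  -- the clusters of the frozen squares
  have hV : ∀ ω : Cfg, (∀ v, v ∉ E → ω v = η v) → ∀ v ∈ S, v ∉ E → ω v = true →
      ∀ u : ℤ × ℤ, Even (u.1 + u.2) → Cor v u → u ∈ VS (Op S ω) s := by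
    intro ω hω v hv hvE hvo u hue hvu
    obtain ⟨i, hi⟩ := hs v hv hvE (by rw [← hω v hvE]; exact hvo) u hue hvu
    refine ⟨i, rtg_mono (F := {z | z ∈ S ∧ z ∉ E ∧ η z = true}) (F' := Op S ω) ?_ hi⟩
    rintro z ⟨h1, h2, h3⟩
    exact ⟨h1, by rw [hω z h2]; exact h3⟩
  set k : Cfg → (Fin m₂ → Set (ℤ × ℤ)) := fun ω i => cl (Op S ω) (s i) with hk
  have e1 : Real.exp (l * m₂) * C = Ex Q E η (fun _ => Real.exp (l * m₂) * C) :=
    (Ex_const hQ _).symm
  rw [e1, Ex_split (α := Fin m₂ → Set (ℤ × ℤ)) k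
      (fun ω => Real.exp (l * ((CrC a b (Op S ω)).ncard : ℝ))),
    Ex_split (α := Fin m₂ → Set (ℤ × ℤ)) k (fun _ => Real.exp (l * m₂) * C)]
  refine Finset.sum_le_sum fun K _ => ?_
  set V : Set (ℤ × ℤ) := {u | ∃ i : Fin m₂, u ∈ K i} with hVd
  set D0 := rest E V with hD0
  have hsub : D0 ⊆ E := fun v hv => (mem_rest.1 hv).1
  set I : Cfg → ℝ := {ω | k ω = K}.indicator 1 with hI
  have hInd : Ind D0 I := ind_tup s K hE
  have hI0 : ∀ ω, 0 ≤ I ω := ind_nonneg _
  have hIz : ∀ ω, k ω ≠ K → I ω = 0 := fun ω h =>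
    Set.indicator_of_notMem (show ω ∉ {ω | k ω = K} from h) _
  have hVS : ∀ ω, k ω = K → VS (Op S ω) s = V := by
    intro ω hω
    ext u
    constructor
    · rintro ⟨i, hi⟩
      refine ⟨i, ?_⟩
      rw [← hω]; exact hi
    · rintro ⟨i, hi⟩
      refine ⟨i, ?_⟩
      rw [← hω] at hi; exact hi
  have h1 : Ex Q E η (fun ω => I ω * Real.exp (l * ((CrC a b (Op S ω)).ncard : ℝ))) ≤
      Ex Q E η (fun ω => (I ω * Real.exp (l * m₂)) *
        Real.exp (l * ((CrC a b (Op D0 ω)).ncard : ℝ))) := by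
    refine Ex_mono hQ fun T _ => ?_
    by_cases h : k (cf E η T) = K
    · rw [mul_assoc, ← Real.exp_add]
      refine mul_le_mul_of_nonneg_left (Real.exp_le_exp.2 ?_) (hI0 _)
      have h2 := crc_le (ω := cf E η T) hE hse (hV _ fun v hv => cf_out hv) hab
      rw [← hS, hVS _ h] at h2
      have h3 : ((CrC a b (Op S (cf E η T))).ncard : ℝ) ≤
          ((CrC a b (Op D0 (cf E η T))).ncard : ℝ) + m₂ := by exact_mod_cast h2
      nlinarith
    · rw [hIz _ h, zero_mul, zero_mul, zero_mul]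
  refine h1.trans ?_
  rw [markov f_markov hQ hsub hη (F := fun ω => Real.exp (l * ((CrC a b (Op D0 ω)).ncard : ℝ)))
    (G := fun ω => I ω * Real.exp (l * m₂)) (fun ω ω' h => by
      show I ω * _ = I ω' * _
      rw [hInd ω ω' h])]
  refine Ex_mono hQ fun T _ => ?_
  by_cases h : k (cf E η T) = K
  · have hgood := f_good.1 E η T hη
    have hVe : ∀ i, K i = cl (Op S (cf E η T)) (s i) := fun i => (congrFun h i).symm
    have hObs : Obs a b c d D0 (Fin.append Λ fun i => Tch a b c d (K i)) := by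
      refine ⟨hsub.trans hE, ?_, ?_, ?_⟩
      · intro v hv hvD
        by_cases hvE : v ∈ E
        · -- touches a cluster
          rw [hD0, mem_rest] at hvD
          push Not at hvD
          obtain ⟨u, ⟨i, hu⟩, hc⟩ := hvD hvE
          refine ⟨Fin.natAdd m₁ i, ?_⟩
          rw [Fin.append_right]
          exact ⟨hv, u, hu, hc⟩
        · by_cases hvo : η v = true
          · obtain ⟨u, hue, hu⟩ := exists_even v
            obtain ⟨i, hi⟩ := hV _ (fun v hv => cf_out hv) v hv hvE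
              (by rw [cf_out hvE]; exact hvo) u hue hu
            refine ⟨Fin.natAdd m₁ i, ?_⟩
            rw [Fin.append_right]
            refine ⟨hv, u, ?_, hu⟩
            rw [hVe i]
            exact hi
          · obtain ⟨i, hi⟩ := hΛ3 v hv hvE (by simpa using hvo)
            refine ⟨Fin.castAdd m₂ i, ?_⟩
            rw [Fin.append_left]
            exact hi
      · intro i
        refine Fin.addCases (fun i => ?_) (fun i => ?_) i
        · rw [Fin.append_left]
          intro v hv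
          obtain ⟨h1, h2⟩ := hΛ2 i v hv
          exact ⟨h1, fun h => h2 (hsub h)⟩
        · rw [Fin.append_right]
          rintro v ⟨hv, u, hu, hc⟩
          exact ⟨hv, fun h => (mem_rest.1 h).2 u ⟨i, hu⟩ hc⟩
      · intro i
        refine Fin.addCases (fun i => ?_) (fun i => ?_) i
        · rw [Fin.append_left]
          exact hΛ1 i
        · rw [Fin.append_right, hVe i]
          exact oconn_tch (hse i) (Finset.Subset.refl _)
    have h2 := hns Q hQ hQ1 a b c d hab hcd hc₀ D0 _ (cf E η T) hObs hgood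
    have h3 := mul_le_mul_of_nonneg_left h2 (mul_nonneg (hI0 (cf E η T))
      (Real.exp_pos (l * m₂)).le)
    rw [← mul_assoc]
    exact h3
  · rw [hIz _ h]
    simp

end Vale.Agent.P167.H722
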