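import Vale.Agent.P167.H722.Row4
import Vale.Agent.P167.H816.Vr

/-!
# P167, `0 < q ≤ 1`: number of the clusters which cross a rectangle, frozen boxes

`Blk B D η`: the frozen squares of `B` of one colour are connected (in `B`). `blk_exp`, `blk_expV`:
exponential moment of the number of the clusters which cross a rectangle from left to right, from bottom
to top, if it is covered by `m` such boxes.
-/

set_option autoImplicit false

namespace Vale.Agent.P167.H722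

open Finset Vale.Agent.P167.FK Vale.Agent.P167.FKA
open Vale.Agent.P145.FB (PStep PConn step_of_corners)
open Vale.Agent.P167.H166 (cl cl_eq cl_parity rtg_mono bxx mem_bxx)
open Vale.Agent.P167.H262 (Rsq mem_Rsq Rsi rtg_rect CD rough_rect_dual mem_Db_rect)
open Vale.Agent.P167.H259 (f_markov)
open Vale.Agent.P167.H562.QM (cl_symm QC OneP OneC exists_even)
open Vale.Agent.P167.H816 (dV VR)
open Relation

variable {Q : ℝ} {a b c d : ℤ} {B D E : Finset (ℤ × ℤ)} {η ω : Cfg} {m : ℕ}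

/-- The closed squares of `B` outside of `D` belong to one cluster. -/
def OneD (B D : Finset (ℤ × ℤ)) (ζ : Cfg) : Prop := OConn {x | x ∈ B ∧ x ∉ D ∧ ζ x = false}

/-- The squares of `B` outside of `D` of each colour belong to one cluster. -/
def Blk (B D : Finset (ℤ × ℤ)) (ζ : Cfg) : Prop := OneP B D ζ ∧ OneD B D ζ

/-- **Exponential moment, boxes.** -/
theorem blk_exp (m : ℕ) {c₀ : ℝ} (hc : 0 < c₀) : ∃ l C : ℝ, 0 < l ∧ 0 < C ∧ ∀ (Q : ℝ), 0 < Q →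
    Q ≤ 1 → ∀ (a b c d : ℤ), a < b → c < d → c₀ ≤ dV Q a b c d →
    ∀ (B : Fin m → Finset (ℤ × ℤ)) (E : Finset (ℤ × ℤ)) (η : Cfg), E ⊆ Rsq a b c d → Good η →
      (∀ i, B i ⊆ Rsq a b c d) → (∀ v ∈ Rsq a b c d, ∃ i, v ∈ B i) → (∀ i, Blk (B i) E η) →
      Ex Q E η (fun ω => Real.exp (l * ((CrC a b (Op (Rsq a b c d) ω)).ncard : ℝ))) ≤ C := by
  classical
  obtain ⟨l, C, hl, hC, h⟩ := fr_exp m m hc
  refine ⟨l, C, hl, hC, fun Q hQ hQ1 a b c d hab hcd hc₀ B E η hE hη hB hcov hblk => ?_⟩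
  -- the sites of the open squares
  have hs : ∀ i, ∃ s : ℤ × ℤ, Even (s.1 + s.2) ∧ ∀ v ∈ B i, v ∉ E → η v = true →
      ∀ u : ℤ × ℤ, Even (u.1 + u.2) → Cor v u →
        u ∈ cl {z | z ∈ B i ∧ z ∉ E ∧ η z = true} s := by
    intro i
    by_cases hne : ∃ w ∈ B i, w ∉ E ∧ η w = true
    · obtain ⟨w, hw, hwE, hwo⟩ := hne
      obtain ⟨s, hse, hs⟩ := exists_even w
      exact ⟨s, hse, fun v hv hvE hvo u hue hu =>
        (hblk i).1 w hw hwE hwo v hv hvE hvo s u hse hue hs hu⟩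
    · refine ⟨(0, 0), by simp, fun v hv hvE hvo => absurd ⟨v, hv, hvE, hvo⟩ hne⟩
  choose s hse hs using hs
  refine h Q hQ hQ1 a b c d hab hcd hc₀ E η (fun i => {x | x ∈ B i ∧ x ∉ E ∧ η x = false}) s hE hη
    (fun i => (hblk i).2) (fun i v hv => ⟨hB i hv.1, hv.2.1⟩) (fun v hv hvE hvo => ?_) hse
    (fun v hv hvE hvo u hue hu => ?_)
  · obtain ⟨i, hi⟩ := hcov v hv
    exact ⟨i, hi, hvE, hvo⟩
  · obtain ⟨i, hi⟩ := hcov v hv
    refine ⟨i, rtg_mono (F := {z | z ∈ B i ∧ z ∉ E ∧ η z = true})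
      (F' := {z | z ∈ Rsq a b c d ∧ z ∉ E ∧ η z = true}) ?_ (hs i v hi hvE hvo u hue hu)⟩
    exact fun z hz => ⟨hB i hz.1, hz.2⟩

/-! ### symmetries -/

theorem cor_sh {v z : ℤ × ℤ} : Cor (FKA.sh v) (FKA.sh z) ↔ Cor v z := by
  simp only [Cor, FKA.sh]
  omega

theorem cor_shi {v z : ℤ × ℤ} : Cor (shi v) (shi z) ↔ Cor v z := by
  simp only [Cor, shi]
  omega

theorem even_sh {z : ℤ × ℤ} : Even ((FKA.sh z).1 + (FKA.sh z).2) ↔ Odd (z.1 + z.2) := by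
  rw [Int.even_iff, Int.odd_iff]
  simp only [FKA.sh]
  omega

theorem odd_sh {z : ℤ × ℤ} : Odd ((FKA.sh z).1 + (FKA.sh z).2) ↔ Even (z.1 + z.2) := by
  rw [Int.even_iff, Int.odd_iff]
  simp only [FKA.sh]
  omega

theorem even_shi {z : ℤ × ℤ} : Even ((shi z).1 + (shi z).2) ↔ Odd (z.1 + z.2) := by
  rw [Int.even_iff, Int.odd_iff]
  simp only [shi]
  omega

theorem odd_shi {z : ℤ × ℤ} : Odd ((shi z).1 + (shi z).2) ↔ Even (z.1 + z.2) := by
  rw [Int.even_iff, Int.odd_iff]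
  simp only [shi]
  omega

theorem rtg_sh {F F' : Set (ℤ × ℤ)} (hF : ∀ v ∈ F, FKA.sh v ∈ F') {u v : ℤ × ℤ}
    (h : ReflTransGen (PStep F) u v) : ReflTransGen (PStep F') (FKA.sh u) (FKA.sh v) :=
  ReflTransGen.lift FKA.sh (fun _ _ h => step_sh hF h) _ _ h

theorem rtg_shi {F F' : Set (ℤ × ℤ)} (hF : ∀ v ∈ F, shi v ∈ F') {u v : ℤ × ℤ}
    (h : ReflTransGen (PStep F) u v) : ReflTransGen (PStep F') (shi u) (shi v) :=
  ReflTransGen.lift shi (fun _ _ h => step_shi hF h) _ _ h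

theorem mem_im_sh {v : ℤ × ℤ} : v ∈ D.image (fun v => (v.1 + 1, v.2)) ↔ shi v ∈ D := by
  rw [Finset.mem_image]
  constructor
  · rintro ⟨w, hw, rfl⟩
    have : shi (w.1 + 1, w.2) = w := shi_sh w
    rw [this]; exact hw
  · intro h
    exact ⟨_, h, sh_shi v⟩

theorem du_eq (v : ℤ × ℤ) : du η v = !η (shi v) := rfl

/-- Duality. -/
theorem Blk.du (h : Blk B D η) :
    Blk (B.image fun v => (v.1 + 1, v.2)) (D.image fun v => (v.1 + 1, v.2)) (du η) := by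
  constructor
  · intro v hv hvD hvo w hw hwD hwo u u' hu hu' hvu hwu
    rw [mem_im_sh] at hv hw
    rw [mem_im_sh] at hvD hwD
    rw [du_eq, Bool.not_eq_true'] at hvo hwo
    have h1 := h.2 (shi v) ⟨hv, hvD, hvo⟩ (shi w) ⟨hw, hwD, hwo⟩ (shi u) (shi u')
      (cor_shi.2 hvu) (cor_shi.2 hwu) (odd_shi.2 hu) (odd_shi.2 hu')
    have h2 := rtg_sh (F := {x | x ∈ B ∧ x ∉ D ∧ η x = false})
      (F' := {z | z ∈ B.image (fun v => (v.1 + 1, v.2)) ∧ z ∉ D.image (fun v => (v.1 + 1, v.2)) ∧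
        FK.du η z = true}) (fun x hx => ⟨by rw [mem_im_sh, shi_sh]; exact hx.1,
        by rw [mem_im_sh, shi_sh]; exact hx.2.1,
        by rw [du_eq, shi_sh, hx.2.2]; rfl⟩) h1
    rw [sh_shi, sh_shi] at h2
    exact h2
  · rintro v ⟨hv, hvD, hvo⟩ w ⟨hw, hwD, hwo⟩ u u' hvu hwu hu hu'
    rw [mem_im_sh] at hv hw
    rw [mem_im_sh] at hvD hwD
    rw [du_eq, Bool.not_eq_false'] at hvo hwo
    have h1 := h.1 (shi v) hv hvD hvo (shi w) hw hwD hwo (shi u) (shi u')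
      (even_shi.2 hu) (even_shi.2 hu') (cor_shi.2 hvu) (cor_shi.2 hwu)
    have h2 := rtg_sh (F := {x | x ∈ B ∧ x ∉ D ∧ η x = true})
      (F' := {z | z ∈ B.image (fun v => (v.1 + 1, v.2)) ∧ z ∉ D.image (fun v => (v.1 + 1, v.2)) ∧
        FK.du η z = false}) (fun x hx => ⟨by rw [mem_im_sh, shi_sh]; exact hx.1,
        by rw [mem_im_sh, shi_sh]; exact hx.2.1,
        by rw [du_eq, shi_sh, hx.2.2]; rfl⟩) h1
    rw [sh_shi, sh_shi] at h2
    exact h2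

theorem oneD_of_oneP {x : ℤ × ℤ} {R : ℤ}
    (h : OneP (bxx (FKA.sh x) R) (D.image fun v => (v.1 + 1, v.2)) (du η)) :
    OneD (bxx x R) D η := by
  intro v hv w hw u u' hvu hwu hu hu'
  have hv1 : FKA.sh v ∈ bxx (FKA.sh x) R := by rw [mem_bxx_sh, shi_sh]; exact hv.1
  have hw1 : FKA.sh w ∈ bxx (FKA.sh x) R := by rw [mem_bxx_sh, shi_sh]; exact hw.1
  have hv2 : FKA.sh v ∉ D.image (fun v => (v.1 + 1, v.2)) := by
    rw [mem_im_sh, shi_sh]; exact hv.2.1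
  have hw2 : FKA.sh w ∉ D.image (fun v => (v.1 + 1, v.2)) := by
    rw [mem_im_sh, shi_sh]; exact hw.2.1
  have hv3 : FK.du η (FKA.sh v) = true := by rw [du_eq, shi_sh, hv.2.2]; rfl
  have hw3 : FK.du η (FKA.sh w) = true := by rw [du_eq, shi_sh, hw.2.2]; rfl
  have h1 := h (FKA.sh v) hv1 hv2 hv3 (FKA.sh w) hw1 hw2 hw3 (FKA.sh u) (FKA.sh u')
    (even_sh.2 hu) (even_sh.2 hu') (cor_sh.2 hvu) (cor_sh.2 hwu)
  have h2 := rtg_shi (F' := {x' | x' ∈ bxx x R ∧ x' ∉ D ∧ η x' = false}) (fun z hz => by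
      obtain ⟨h3, h4, h5⟩ := hz
      rw [mem_bxx_sh] at h3
      rw [mem_im_sh] at h4
      rw [du_eq, Bool.not_eq_true'] at h5
      exact ⟨h3, h4, h5⟩) h1
  rw [shi_sh, shi_sh] at h2
  exact h2

theorem blk_of_oneC {x : ℤ × ℤ} {R : ℤ} (h : OneC x R D η) : Blk (bxx x R) D η :=
  ⟨h.1, oneD_of_oneP h.2⟩

/-- Transposition. -/
def sw (v : ℤ × ℤ) : ℤ × ℤ := (v.2, v.1)

theorem sw_sw (v : ℤ × ℤ) : sw (sw v) = v := rfl

theorem sw_mem : sw ∈ syms := by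
  simp [syms]
  right; right; right; right
  rfl

theorem cor_sw {v z : ℤ × ℤ} : Cor (sw v) (sw z) ↔ Cor v z := by
  simp only [Cor, sw]
  omega

theorem even_sw {z : ℤ × ℤ} : Even ((sw z).1 + (sw z).2) ↔ Even (z.1 + z.2) := by
  simp only [sw]
  rw [add_comm]

theorem odd_sw {z : ℤ × ℤ} : Odd ((sw z).1 + (sw z).2) ↔ Odd (z.1 + z.2) := by
  simp only [sw]
  rw [add_comm]

theorem step_sw {F F' : Set (ℤ × ℤ)} (hF : ∀ v ∈ F, sw v ∈ F') {u v : ℤ × ℤ} (h : PStep F u v) :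
    PStep F' (sw u) (sw v) := ⟨h.2.1, h.1, hF _ h.2.2⟩

theorem rtg_sw {F F' : Set (ℤ × ℤ)} (hF : ∀ v ∈ F, sw v ∈ F') {u v : ℤ × ℤ}
    (h : ReflTransGen (PStep F) u v) : ReflTransGen (PStep F') (sw u) (sw v) :=
  ReflTransGen.lift sw (fun _ _ h => step_sw hF h) _ _ h

theorem mem_im_sw {v : ℤ × ℤ} : v ∈ D.image sw ↔ sw v ∈ D := by
  rw [Finset.mem_image]
  constructor
  · rintro ⟨w, hw, rfl⟩
    exact hw
  · intro h
    exact ⟨_, h, sw_sw v⟩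

theorem Blk.sw (h : Blk B D η) : Blk (B.image sw) (D.image sw) (η ∘ sw) := by
  constructor
  · intro v hv hvD hvo w hw hwD hwo u u' hu hu' hvu hwu
    rw [mem_im_sw] at hv hw
    rw [mem_im_sw] at hvD hwD
    have h1 := h.1 (H722.sw v) hv hvD hvo (H722.sw w) hw hwD hwo (H722.sw u) (H722.sw u')
      (even_sw.2 hu) (even_sw.2 hu') (cor_sw.2 hvu) (cor_sw.2 hwu)
    exact rtg_sw (F' := {z | z ∈ B.image H722.sw ∧ z ∉ D.image H722.sw ∧
      (η ∘ H722.sw) z = true}) (fun x hx => ⟨by rw [mem_im_sw, sw_sw]; exact hx.1,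
        by rw [mem_im_sw, sw_sw]; exact hx.2.1, by
          show η (H722.sw (H722.sw x)) = true
          rw [sw_sw]; exact hx.2.2⟩) h1
  · rintro v ⟨hv, hvD, hvo⟩ w ⟨hw, hwD, hwo⟩ u u' hvu hwu hu hu'
    rw [mem_im_sw] at hv hw
    rw [mem_im_sw] at hvD hwD
    have h1 := h.2 (H722.sw v) ⟨hv, hvD, hvo⟩ (H722.sw w) ⟨hw, hwD, hwo⟩ (H722.sw u)
      (H722.sw u') (cor_sw.2 hvu) (cor_sw.2 hwu) (odd_sw.2 hu) (odd_sw.2 hu')
    exact rtg_sw (F' := {z | z ∈ B.image H722.sw ∧ z ∉ D.image H722.sw ∧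
      (η ∘ H722.sw) z = false}) (fun x hx => ⟨by rw [mem_im_sw, sw_sw]; exact hx.1,
        by rw [mem_im_sw, sw_sw]; exact hx.2.1, by
          show η (H722.sw (H722.sw x)) = false
          rw [sw_sw]; exact hx.2.2⟩) h1

theorem Rsq_sw : (Rsq a b c d).image sw = Rsq c d a b := by
  ext v
  rw [mem_im_sw, mem_Rsq, mem_Rsq]
  simp only [sw]
  omega

theorem Ex_sw (hQ0 : 0 < Q) (hη : Good η) (F : Cfg → ℝ) :
    Ex Q D η F = Ex Q (D.image sw) (η ∘ sw) (fun ω => F (ω ∘ sw)) := by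
  classical
  obtain ⟨-, hs⟩ := f_sym sw sw_mem
  have hback : (D.image sw).image sw = D := by
    rw [Finset.image_image]
    have : sw ∘ sw = id := funext sw_sw
    rw [this, Finset.image_id]
  rw [hs Q (D.image sw) η _ hQ0 hη, hback]
  exact Ex_congr fun S _ => rfl

theorem good_sw (hη : Good η) : Good (η ∘ sw) := (f_sym sw sw_mem).1 η hη

/-- The clusters of `F` which join the row `c` to the row `d`. -/
def CrV (c d : ℤ) (F : Set (ℤ × ℤ)) : Set (Set (ℤ × ℤ)) :=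
  {C | ∃ u : ℤ × ℤ, Even (u.1 + u.2) ∧ u.2 = c ∧ C = cl F u ∧ ∃ t ∈ C, t.2 = d}

theorem cl_sw {F F' : Set (ℤ × ℤ)} (h1 : ∀ v ∈ F, sw v ∈ F') (h2 : ∀ v ∈ F', sw v ∈ F)
    (s : ℤ × ℤ) : cl F' (sw s) = sw '' cl F s := by
  ext t
  constructor
  · intro ht
    exact ⟨sw t, rtg_sw h2 ht, sw_sw t⟩
  · rintro ⟨t, ht, rfl⟩
    exact rtg_sw h1 ht

theorem sw_inj : Function.Injective sw := fun x y h => by
  have := congrArg sw h
  exact this

theorem crv_sw {F F' : Set (ℤ × ℤ)} (h1 : ∀ v ∈ F, sw v ∈ F') (h2 : ∀ v ∈ F', sw v ∈ F) :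
    (CrV c d F').ncard = (CrC c d F).ncard := by
  have h : CrV c d F' = (fun C => sw '' C) '' CrC c d F := by
    ext C
    constructor
    · rintro ⟨u, hue, huc, rfl, t, ht, htd⟩
      refine ⟨cl F (sw u), ⟨sw u, even_sw.2 hue, huc, rfl, sw t, rtg_sw h2 ht, htd⟩, ?_⟩
      exact (cl_sw h1 h2 (sw u)).symm
    · rintro ⟨_, ⟨u, hue, huc, rfl, t, ht, htd⟩, rfl⟩
      refine ⟨sw u, even_sw.2 hue, huc, (cl_sw h1 h2 u).symm, sw t, ⟨t, ht, rfl⟩, htd⟩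
  rw [h, Set.ncard_image_of_injective _ sw_inj.image_injective]

theorem mem_op_sw {v : ℤ × ℤ} (hv : v ∈ Op (Rsq a b c d) ω) : sw v ∈ Op (Rsq c d a b) (ω ∘ sw) := by
  obtain ⟨h1, h2⟩ := hv
  refine ⟨?_, h2⟩
  have h3 := mem_Rsq.1 (Finset.mem_coe.1 h1)
  show sw v ∈ (Rsq c d a b)
  rw [mem_Rsq]
  simp only [sw]
  omega

/-- **Exponential moment, boxes, crossings from bottom to top.** -/
theorem blk_expV (m : ℕ) {c₀ : ℝ} (hc : 0 < c₀) : ∃ l C : ℝ, 0 < l ∧ 0 < C ∧ ∀ (Q : ℝ), 0 < Q →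
    Q ≤ 1 → ∀ (a b c d : ℤ), a < b → c < d → c₀ ≤ dV Q c d a b →
    ∀ (B : Fin m → Finset (ℤ × ℤ)) (E : Finset (ℤ × ℤ)) (η : Cfg), E ⊆ Rsq a b c d → Good η →
      (∀ i, B i ⊆ Rsq a b c d) → (∀ v ∈ Rsq a b c d, ∃ i, v ∈ B i) → (∀ i, Blk (B i) E η) →
      Ex Q E η (fun ω => Real.exp (l * ((CrV c d (Op (Rsq a b c d) ω)).ncard : ℝ))) ≤ C := by
  classical
  obtain ⟨l, C, hl, hC, h⟩ := blk_exp m hc
  refine ⟨l, C, hl, hC, fun Q hQ hQ1 a b c d hab hcd hc₀ B E η hE hη hB hcov hblk => ?_⟩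
  have h1 := h Q hQ hQ1 c d a b hcd hab hc₀ (fun i => (B i).image sw) (E.image sw) (η ∘ sw)
    (by rw [← Rsq_sw]; exact Finset.image_subset_image hE) (good_sw hη)
    (fun i => by rw [← Rsq_sw]; exact Finset.image_subset_image (hB i))
    (fun v hv => by
      rw [← Rsq_sw, mem_im_sw] at hv
      obtain ⟨i, hi⟩ := hcov _ hv
      exact ⟨i, mem_im_sw.2 hi⟩) (fun i => (hblk i).sw)
  rw [Ex_sw hQ hη]
  refine le_trans (le_of_eq (Ex_congr fun S _ => ?_)) h1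
  rw [crv_sw (F := Op (Rsq c d a b) (cf (E.image sw) (η ∘ sw) S)) (fun v hv => mem_op_sw hv)]
  intro v hv
  exact mem_op_sw (ω := cf (E.image sw) (η ∘ sw) S ∘ sw) hv

end Vale.Agent.P167.H722
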